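import Vale.Agent.P180.H574.LemDA
import Vale.Agent.P180.H951.Dec
import Vale.Agent.P180.R2.H47.Bm1

/-!
P180 H574: a `p`-subgroup `S` of a general linear group, `p` odd, which is a Sylow subgroup of the
unit group of its enveloping algebra, is commutative if its elements of determinant one commute.
-/

set_option linter.all false

namespace Vale.Agent.P180.H574

open Module Vale.Agent.P180.H951

/-- Two elements of a nonabelian `p`-group whose commutator is central of order `p`. -/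
theorem exists_comm_pair {G : Type*} [Group G] [Finite G] {p : ℕ} [Fact p.Prime]
    (hG : IsPGroup p G) (hne : ¬ ∀ x y : G, x * y = y * x) :
    ∃ x y z : G, x * y = z * (y * x) ∧ (∀ a, z * a = a * z) ∧ z ^ p = 1 ∧ z ≠ 1 := by
  classical
  have hnt : Nontrivial (G ⧸ Subgroup.center G) := by
    push Not at hne
    obtain ⟨x, y, hxy⟩ := hne
    refine ⟨⟨(x : G ⧸ Subgroup.center G), 1, fun h => ?_⟩⟩
    have h1 : x ∈ Subgroup.center G := (QuotientGroup.eq_one_iff x).mp h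
    exact hxy ((Subgroup.mem_center_iff.mp h1 y).symm)
  have hq : IsPGroup p (G ⧸ Subgroup.center G) := hG.to_quotient _
  have hc := hq.center_nontrivial
  obtain ⟨⟨y0, hy0⟩, hy1⟩ := exists_ne (1 : Subgroup.center (G ⧸ Subgroup.center G))
  obtain ⟨y, rfl⟩ := QuotientGroup.mk_surjective y0
  have hyZ : y ∉ Subgroup.center G := by
    intro h
    exact hy1 (Subtype.ext ((QuotientGroup.eq_one_iff y).mpr h))
  have hall : ∀ g : G, g * y * g⁻¹ * y⁻¹ ∈ Subgroup.center G := by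
    intro g
    rw [← QuotientGroup.eq_one_iff]
    have h1 := Subgroup.mem_center_iff.mp hy0 (g : G ⧸ Subgroup.center G)
    change (g : G ⧸ Subgroup.center G) * (y : G ⧸ Subgroup.center G) *
      (g : G ⧸ Subgroup.center G)⁻¹ * (y : G ⧸ Subgroup.center G)⁻¹ = 1
    have h2 : (g : G ⧸ Subgroup.center G) * (y : G ⧸ Subgroup.center G) =
      (y : G ⧸ Subgroup.center G) * (g : G ⧸ Subgroup.center G) := h1
    rw [h2, mul_inv_cancel_right, mul_inv_cancel]
  obtain ⟨x, hx⟩ : ∃ x, x * y ≠ y * x := by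
    by_contra h
    push Not at h
    exact hyZ (Subgroup.mem_center_iff.mpr h)
  obtain ⟨c, hcdef⟩ : ∃ c, c = x * y * x⁻¹ * y⁻¹ := ⟨_, rfl⟩
  have hcZ : ∀ a, a * c = c * a := Subgroup.mem_center_iff.mp (hcdef ▸ hall x)
  have hc1 : c ≠ 1 := by
    intro h
    apply hx
    rw [hcdef] at h
    calc x * y = (x * y * x⁻¹ * y⁻¹) * (y * x) := by group
      _ = y * x := by rw [h, one_mul]
  have hk : ∃ k, c ^ p ^ k = 1 := hG c
  obtain ⟨m, hm⟩ : ∃ m, Nat.find hk = m + 1 := by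
    refine Nat.exists_eq_succ_of_ne_zero fun h => ?_
    have h1 := Nat.find_spec hk
    rw [h, pow_zero, pow_one] at h1
    exact hc1 h1
  refine ⟨x, y ^ p ^ m, c ^ p ^ m, ?_, ?_, ?_, ?_⟩
  · have h1 : x * y * x⁻¹ = c * y := by
      rw [hcdef]
      group
    have h2 : x * y ^ p ^ m * x⁻¹ = c ^ p ^ m * y ^ p ^ m := by
      rw [← conj_pow, h1]
      exact Commute.mul_pow (hcZ y).symm _
    calc x * y ^ p ^ m = x * y ^ p ^ m * x⁻¹ * x := by group
      _ = c ^ p ^ m * (y ^ p ^ m * x) := by rw [h2, mul_assoc]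
  · intro a
    exact (Commute.pow_left (hcZ a).symm _)
  · rw [← pow_mul, ← pow_succ, ← hm]
    exact Nat.find_spec hk
  · exact Nat.find_min hk (by omega)

section

variable {K E : Type} [Field K] [Finite K] [AddCommGroup E] [Module K E] [FiniteDimensional K E]

/-- **Lemma D.** -/
theorem lemD {p : ℕ} [hp : Fact p.Prime] (h2 : p ≠ 2) (hK : ¬ p ∣ Nat.card K)
    (S : Subgroup (E ≃ₗ[K] E)) (hS : IsPGroup p S)
    (hmax : ∀ P : Subgroup (E ≃ₗ[K] E), IsPGroup p P → S ≤ P →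
      (∀ x ∈ P, tE x ∈ Submodule.span K (Set.range fun s : S => tE (s : E ≃ₗ[K] E))) → P = S)
    {L : Type*} [CommGroup L] (χ : (E ≃ₗ[K] E) →* L)
    (hab : ∀ x ∈ S, ∀ y ∈ S, χ x = 1 → χ y = 1 → x * y = y * x) :
    ∀ x ∈ S, ∀ y ∈ S, x * y = y * x := by
  classical
  by_contra hcon
  have hEfin : Finite E := Module.finite_of_finite K
  have hGfin : Finite (E ≃ₗ[K] E) :=
    Finite.of_injective (fun e : E ≃ₗ[K] E => (e : E → E)) DFunLike.coe_injective
  have hne : ¬ ∀ x y : S, x * y = y * x := by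
    intro h
    exact hcon fun x hx y hy => congrArg Subtype.val (h ⟨x, hx⟩ ⟨y, hy⟩)
  obtain ⟨x, y, z, hxy, hz, hzp, hz1⟩ := exists_comm_pair hS hne
  -- the enveloping algebra
  let ρ : S →* End K E :=
    { toFun := fun q => tE (q : E ≃ₗ[K] E)
      map_one' := rfl
      map_mul' := fun _ _ => rfl }
  let Φ : MonoidAlgebra K S →ₐ[K] End K E := MonoidAlgebra.lift K (End K E) S ρ
  have hΦ : ∀ q : S, Φ (MonoidAlgebra.single q 1) = tE (q : E ≃ₗ[K] E) := by
    intro q
    change MonoidAlgebra.lift K (End K E) S ρ (MonoidAlgebra.single q 1) = _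
    rw [MonoidAlgebra.lift_single, one_smul]
    rfl
  have hspan : ∀ a ∈ Φ.range, a ∈ Submodule.span K (Set.range fun q : S => tE (q : E ≃ₗ[K] E)) := by
    rintro _ ⟨a, rfl⟩
    change Φ a ∈ _
    induction a using MonoidAlgebra.induction_linear with
    | zero => rw [map_zero]; exact Submodule.zero_mem _
    | add x y hx hy => rw [map_add]; exact Submodule.add_mem _ hx hy
    | single q c =>
      have h2 : MonoidAlgebra.single q c = c • MonoidAlgebra.single q (1 : K) := by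
        rw [MonoidAlgebra.smul_single, smul_eq_mul, mul_one]
      rw [h2, map_smul, hΦ]
      exact Submodule.smul_mem _ _ (Submodule.subset_span ⟨q, rfl⟩)
  have hmem : ∀ q : S, tE (q : E ≃ₗ[K] E) ∈ Φ.range := fun q => ⟨_, hΦ q⟩
  have hcomm : ∀ b : End K E, (∀ q : S, b * tE (q : E ≃ₗ[K] E) = tE (q : E ≃ₗ[K] E) * b) →
      ∀ a ∈ Φ.range, b * a = a * b := by
    rintro b hb _ ⟨a, rfl⟩
    change b * Φ a = Φ a * b
    induction a using MonoidAlgebra.induction_linear with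
    | zero => simp
    | add x y hx hy => rw [map_add, mul_add, add_mul, hx, hy]
    | single q c =>
      have h2 : MonoidAlgebra.single q c = c • MonoidAlgebra.single q (1 : K) := by
        rw [MonoidAlgebra.smul_single, smul_eq_mul, mul_one]
      rw [h2, map_smul, hΦ, mul_smul_comm, smul_mul_assoc, hb q]
  have hcard0 : (Nat.card S : K) ≠ 0 := by
    intro h0
    obtain ⟨m, hm⟩ := IsPGroup.iff_card.mp hS
    have hcop : Nat.Coprime (Nat.card S) (Nat.card K) := by
      rw [hm]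
      exact Nat.Coprime.pow_left _ ((Nat.Prime.coprime_iff_not_dvd hp.out).mpr hK)
    have h3 : IsCoprime (Nat.card S : ℤ) (Nat.card K : ℤ) := Nat.isCoprime_iff_coprime.mpr hcop
    obtain ⟨a, b, hab'⟩ := h3
    have h4 := congrArg (fun t : ℤ => (t : K)) hab'
    have h5 : (Nat.card K : K) = 0 := by
      have := Fintype.ofFinite K
      rw [Nat.card_eq_fintype_card]
      exact Nat.cast_card_eq_zero K
    simp only [Int.cast_add, Int.cast_mul, Int.cast_natCast, h0, h5, mul_zero, add_zero,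
      Int.cast_one] at h4
    exact zero_ne_one h4
  haveI : NeZero (Nat.card S : K) := ⟨hcard0⟩
  haveI : IsSemisimpleRing Φ.range :=
    RingHom.isSemisimpleRing_of_surjective (Φ.rangeRestrict : MonoidAlgebra K S →+* Φ.range)
      Φ.rangeRestrict_surjective
  have hu : ∀ q : S, IsUnit (⟨tE (q : E ≃ₗ[K] E), hmem q⟩ : Φ.range) := by
    intro q
    refine ⟨⟨⟨tE (q : E ≃ₗ[K] E), hmem q⟩, ⟨tE ((q⁻¹ : S) : E ≃ₗ[K] E), hmem q⁻¹⟩, ?_, ?_⟩, rfl⟩
    · exact Subtype.ext (tE_mul_inv (q : E ≃ₗ[K] E))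
    · exact Subtype.ext (tE_inv_mul (q : E ≃ₗ[K] E))
  have hval : ∀ a b : S, (⟨tE (a : E ≃ₗ[K] E), hmem a⟩ : Φ.range) *
      ⟨tE (b : E ≃ₗ[K] E), hmem b⟩ = ⟨tE ((a * b : S) : E ≃ₗ[K] E), hmem (a * b)⟩ := fun a b =>
    Subtype.ext rfl
  obtain ⟨n, D, iF, iD, iA, φ, ι, ζ, hn, -, hφι, hιm, hιa, hι1, hιφ, -, hζp, hζ1⟩ :=
    Vale.Agent.P180.R2.H47.Bm.exists_comp (K := K) (A := Φ.range) (p := p)
      (x := ⟨tE (x : E ≃ₗ[K] E), hmem x⟩) (y := ⟨tE (y : E ≃ₗ[K] E), hmem y⟩)
      (z := ⟨tE (z : E ≃ₗ[K] E), hmem z⟩) (hu x) (hu y)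
      (by rw [hval, hval, hval]; exact Subtype.ext (by rw [hxy]))
      (by
        intro a
        apply Subtype.ext
        refine hcomm (tE (z : E ≃ₗ[K] E)) (fun q => ?_) a a.2
        change tE ((z * q : S) : E ≃ₗ[K] E) = tE ((q * z : S) : E ≃ₗ[K] E)
        rw [hz q])
      (by
        apply Subtype.ext
        change (tE (z : E ≃ₗ[K] E)) ^ p = 1
        rw [← map_pow, ← Subgroup.coe_pow, hzp]
        rfl)
      (by
        intro h
        apply hz1
        apply Subtype.ext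
        exact tE_injective (congrArg Subtype.val h))
  -- the embedding of the units of the component
  let e1 : Φ.range := ι 1
  have h11 : ι 1 * ι 1 = ι 1 := by rw [← hιm, mul_one]
  let θ : Matrix (Fin n) (Fin n) D →* Φ.range :=
    { toFun := fun M => ι M + (1 - ι 1)
      map_one' := by abel
      map_mul' := fun M N => by
        have h3 : ι M * ι 1 = ι M := by rw [← hιm, mul_one]
        have h4 : ι 1 * ι N = ι N := by rw [← hιm, one_mul]
        rw [hιm, add_mul, mul_add, mul_add, mul_sub, mul_sub, sub_mul, mul_one, mul_one, one_mul,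
          h3, h4, sub_mul, one_mul, h11]
        abel }
  have hφθ : ∀ M, φ (θ M) = M := by
    intro M
    change φ (ι M + (1 - ι 1)) = M
    rw [map_add, map_sub, hφι, hφι, map_one, sub_self, add_zero]
  let η : (Φ.range)ˣ →* (E ≃ₗ[K] E) :=
    (LinearMap.GeneralLinearGroup.generalLinearEquiv K E : _ →* (E ≃ₗ[K] E)).comp
      (Units.map (Φ.range.val : Φ.range →* End K E))
  have hη : ∀ u, tE (η u) = ((u : Φ.range) : End K E) := fun u => rfl
  let Θ : (Matrix (Fin n) (Fin n) D)ˣ →* (E ≃ₗ[K] E) := η.comp (Units.map θ)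
  have hΘ : ∀ u, tE (Θ u) = ((θ (u : Matrix (Fin n) (Fin n) D) : Φ.range) : End K E) := fun u => rfl
  have hΘinj : Function.Injective Θ := by
    intro u v huv
    have h3 := congrArg tE huv
    rw [hΘ, hΘ] at h3
    have h4 : θ (u : Matrix (Fin n) (Fin n) D) = θ (v : Matrix (Fin n) (Fin n) D) := Subtype.ext h3
    have h5 := congrArg φ h4
    rw [hφθ, hφθ] at h5
    exact Units.ext h5
  -- the group of units
  let U : Subgroup (E ≃ₗ[K] E) := η.range
  have hSU : S ≤ U := by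
    intro s hs
    obtain ⟨u, hu⟩ := hu ⟨s, hs⟩
    refine ⟨u, ?_⟩
    apply tE_injective
    rw [hη, hu]
  have hUmem : ∀ u ∈ U, tE u ∈ Φ.range := by
    rintro _ ⟨u, rfl⟩
    rw [hη]
    exact (u : Φ.range).2
  have hΘU : ∀ u, Θ u ∈ U := fun u => ⟨_, rfl⟩
  let Sy : Sylow p U :=
    { S.subgroupOf U with
      isPGroup' := hS.comap_subtype
      is_maximal' := by
        intro Q hQ hSQ
        change Q = S.subgroupOf U
        change S.subgroupOf U ≤ Q at hSQ
        have h3 : Q.map U.subtype = S := by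
          apply hmax
          · exact hQ.map _
          · intro s hs
            exact ⟨⟨s, hSU hs⟩, hSQ hs, rfl⟩
          · rintro _ ⟨q, _, rfl⟩
            exact hspan _ (hUmem _ q.2)
        ext q
        rw [Subgroup.mem_subgroupOf, ← h3]
        constructor
        · intro hq
          exact ⟨q, hq, rfl⟩
        · rintro ⟨q', hq', h4⟩
          have h5 : q' = q := Subtype.ext h4
          rwa [← h5] }
  obtain ⟨ζu, hζu⟩ : ∃ u : Dˣ, (u : D) = ζ := by
    have h0 : ζ ≠ 0 := by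
      rintro rfl
      rw [zero_pow hp.out.ne_zero] at hζp
      exact zero_ne_one hζp
    exact ⟨Units.mk0 ζ h0, rfl⟩
  obtain ⟨P, C, Dm, hP, hC, hD, hCD, hCp, ⟨w, hw⟩, a, b, hDab⟩ :=
    exists_monoPair (F := D) (n := Fin n) hp.out h2 (by rw [Fintype.card_fin]; exact hn) (ζ := ζu)
      (Units.ext (by rw [Units.val_pow_eq_pow_val, hζu, hζp, Units.val_one]))
      (fun h => hζ1 (by rw [← hζu, h, Units.val_one]))
  have hP' : IsPGroup p ((P.map Θ).subgroupOf U) := (hP.map Θ).comap_subtype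
  obtain ⟨Q, hQ⟩ := hP'.exists_le_sylow
  obtain ⟨g, hg⟩ := MulAction.exists_smul_eq U Q Sy
  have hgP : ∀ t ∈ P, (g : E ≃ₗ[K] E) * Θ t * (g : E ≃ₗ[K] E)⁻¹ ∈ S := by
    intro t ht
    have h3 : (⟨Θ t, hΘU t⟩ : U) ∈ (Q : Subgroup U) := hQ ⟨t, ht, rfl⟩
    have h4 : g * ⟨Θ t, hΘU t⟩ * g⁻¹ ∈ ((g • Q : Sylow p U) : Subgroup U) := by
      rw [Sylow.smul_def, Sylow.pointwise_smul_def]
      exact Subgroup.smul_mem_pointwise_smul _ (MulAut.conj g) _ h3
    rw [hg] at h4
    exact h4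
  have hχD : χ (Θ Dm) = 1 := by
    rw [hDab]
    simp only [map_mul, map_inv]
    rw [mul_right_comm (χ (Θ a)), mul_inv_cancel, one_mul, mul_inv_cancel]
  have hχC : χ (Θ C) = 1 := by
    have h3 := congrArg (fun t => χ (Θ t)) hw
    simp only [map_mul, map_inv] at h3
    rw [mul_right_comm, mul_inv_cancel, one_mul] at h3
    have h4 : χ (Θ C) ^ 2 = 1 := by
      rw [pow_two]
      nth_rewrite 1 [h3]
      exact inv_mul_cancel _
    have h5 : χ (Θ C) ^ p = 1 := by rw [← map_pow, ← map_pow, hCp, map_one, map_one]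
    have h6 : Nat.Coprime 2 p := by
      rw [Nat.coprime_primes Nat.prime_two hp.out]
      exact h2.symm
    have h7 : orderOf (χ (Θ C)) ∣ Nat.gcd 2 p :=
      Nat.dvd_gcd (orderOf_dvd_of_pow_eq_one h4) (orderOf_dvd_of_pow_eq_one h5)
    rw [h6] at h7
    exact orderOf_eq_one_iff.mp (Nat.dvd_one.mp h7)
  have hconj : ∀ t, χ t = 1 → χ ((g : E ≃ₗ[K] E) * t * (g : E ≃ₗ[K] E)⁻¹) = 1 := by
    intro t ht
    rw [map_mul, map_mul, ht, mul_one, map_inv, mul_inv_cancel]
  have h3 := hab _ (hgP C hC) _ (hgP Dm hD) (hconj _ hχC) (hconj _ hχD)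
  apply hCD
  apply hΘinj
  rw [map_mul, map_mul]
  have h4 : (g : E ≃ₗ[K] E) * (Θ C * Θ Dm) * (g : E ≃ₗ[K] E)⁻¹ =
      (g : E ≃ₗ[K] E) * (Θ Dm * Θ C) * (g : E ≃ₗ[K] E)⁻¹ := by
    calc (g : E ≃ₗ[K] E) * (Θ C * Θ Dm) * (g : E ≃ₗ[K] E)⁻¹ =
        (g : E ≃ₗ[K] E) * Θ C * (g : E ≃ₗ[K] E)⁻¹ *
          ((g : E ≃ₗ[K] E) * Θ Dm * (g : E ≃ₗ[K] E)⁻¹) := by group
      _ = _ := by rw [h3]
      _ = _ := by group
  exact mul_left_cancel (mul_right_cancel h4)

end

end Vale.Agent.P180.H574
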