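import Vale.Agent.P180.H574.LemDCa
import Vale.Agent.P180.H574.LemD
import Vale.Agent.P180.H951.SlAll

/-!
P180 H574: a `p`-subgroup `S` of a general linear group, `p` odd, which is a Sylow subgroup of the
unit group of its enveloping algebra, is commutative if its elements of determinant one satisfy an
Engel condition of length `p - 2` (for example if they generate a group of class at most `p - 2`).
-/

set_option linter.all false

namespace Vale.Agent.P180.H574

open Module Vale.Agent.P180.H951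

section

variable {K E : Type} [Field K] [Finite K] [AddCommGroup E] [Module K E] [FiniteDimensional K E]

/-- **Lemma D**, with an Engel condition of length `p - 2`. -/
theorem lemDE {p : ℕ} [hp : Fact p.Prime] (h2 : p ≠ 2) (hK : ¬ p ∣ Nat.card K)
    (S : Subgroup (E ≃ₗ[K] E)) (hS : IsPGroup p S)
    (hmax : ∀ P : Subgroup (E ≃ₗ[K] E), IsPGroup p P → S ≤ P →
      (∀ x ∈ P, tE x ∈ Submodule.span K (Set.range fun s : S => tE (s : E ≃ₗ[K] E))) → P = S)
    {L : Type*} [CommGroup L] (χ : (E ≃ₗ[K] E) →* L)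
    (hab : ∀ x ∈ S, ∀ y ∈ S, χ x = 1 → χ y = 1 → (cm x)^[p - 2] y = 1) :
    ∀ x ∈ S, ∀ y ∈ S, x * y = y * x := by
  classical
  by_contra hcon
  have hEfin : Finite E := Module.finite_of_finite K
  have hGfin : Finite (E ≃ₗ[K] E) :=
    Finite.of_injective (fun e : E ≃ₗ[K] E => (e : E → E)) DFunLike.coe_injective
  have hne : ¬ ∀ x y : S, x * y = y * x := by
    intro h
    exact hcon fun x hx y hy => congrArg Subtype.val (h ⟨x, hx⟩ ⟨y, hy⟩)
  obtain ⟨x, y, z, hxy, hz, hzp, hz1⟩ := exists_comm_pair hS hne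
  -- the enveloping algebra
  let ρ : S →* End K E :=
    { toFun := fun q => tE (q : E ≃ₗ[K] E)
      map_one' := rfl
      map_mul' := fun _ _ => rfl }
  let Φ : MonoidAlgebra K S →ₐ[K] End K E := MonoidAlgebra.lift K (End K E) S ρ
  have hΦ : ∀ q : S, Φ (MonoidAlgebra.single q 1) = tE (q : E ≃ₗ[K] E) := by
    intro q
    change MonoidAlgebra.lift K (End K E) S ρ (MonoidAlgebra.single q 1) = _
    rw [MonoidAlgebra.lift_single, one_smul]
    rfl
  have hspan : ∀ a ∈ Φ.range, a ∈ Submodule.span K (Set.range fun q : S => tE (q : E ≃ₗ[K] E)) := by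
    rintro _ ⟨a, rfl⟩
    change Φ a ∈ _
    induction a using MonoidAlgebra.induction_linear with
    | zero => rw [map_zero]; exact Submodule.zero_mem _
    | add x y hx hy => rw [map_add]; exact Submodule.add_mem _ hx hy
    | single q c =>
      have h2 : MonoidAlgebra.single q c = c • MonoidAlgebra.single q (1 : K) := by
        rw [MonoidAlgebra.smul_single, smul_eq_mul, mul_one]
      rw [h2, map_smul, hΦ]
      exact Submodule.smul_mem _ _ (Submodule.subset_span ⟨q, rfl⟩)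
  have hmem : ∀ q : S, tE (q : E ≃ₗ[K] E) ∈ Φ.range := fun q => ⟨_, hΦ q⟩
  have hcomm : ∀ b : End K E, (∀ q : S, b * tE (q : E ≃ₗ[K] E) = tE (q : E ≃ₗ[K] E) * b) →
      ∀ a ∈ Φ.range, b * a = a * b := by
    rintro b hb _ ⟨a, rfl⟩
    change b * Φ a = Φ a * b
    induction a using MonoidAlgebra.induction_linear with
    | zero => simp
    | add x y hx hy => rw [map_add, mul_add, add_mul, hx, hy]
    | single q c =>
      have h2 : MonoidAlgebra.single q c = c • MonoidAlgebra.single q (1 : K) := by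
        rw [MonoidAlgebra.smul_single, smul_eq_mul, mul_one]
      rw [h2, map_smul, hΦ, mul_smul_comm, smul_mul_assoc, hb q]
  have hcard0 : (Nat.card S : K) ≠ 0 := by
    intro h0
    obtain ⟨m, hm⟩ := IsPGroup.iff_card.mp hS
    have hcop : Nat.Coprime (Nat.card S) (Nat.card K) := by
      rw [hm]
      exact Nat.Coprime.pow_left _ ((Nat.Prime.coprime_iff_not_dvd hp.out).mpr hK)
    have h3 : IsCoprime (Nat.card S : ℤ) (Nat.card K : ℤ) := Nat.isCoprime_iff_coprime.mpr hcop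
    obtain ⟨a, b, hab'⟩ := h3
    have h4 := congrArg (fun t : ℤ => (t : K)) hab'
    have h5 : (Nat.card K : K) = 0 := by
      have := Fintype.ofFinite K
      rw [Nat.card_eq_fintype_card]
      exact Nat.cast_card_eq_zero K
    simp only [Int.cast_add, Int.cast_mul, Int.cast_natCast, h0, h5, mul_zero, add_zero,
      Int.cast_one] at h4
    exact zero_ne_one h4
  haveI : NeZero (Nat.card S : K) := ⟨hcard0⟩
  haveI : IsSemisimpleRing Φ.range :=
    RingHom.isSemisimpleRing_of_surjective (Φ.rangeRestrict : MonoidAlgebra K S →+* Φ.range)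
      Φ.rangeRestrict_surjective
  have hu : ∀ q : S, IsUnit (⟨tE (q : E ≃ₗ[K] E), hmem q⟩ : Φ.range) := by
    intro q
    refine ⟨⟨⟨tE (q : E ≃ₗ[K] E), hmem q⟩, ⟨tE ((q⁻¹ : S) : E ≃ₗ[K] E), hmem q⁻¹⟩, ?_, ?_⟩, rfl⟩
    · exact Subtype.ext (tE_mul_inv (q : E ≃ₗ[K] E))
    · exact Subtype.ext (tE_inv_mul (q : E ≃ₗ[K] E))
  have hval : ∀ a b : S, (⟨tE (a : E ≃ₗ[K] E), hmem a⟩ : Φ.range) *
      ⟨tE (b : E ≃ₗ[K] E), hmem b⟩ = ⟨tE ((a * b : S) : E ≃ₗ[K] E), hmem (a * b)⟩ := fun a b =>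
    Subtype.ext rfl
  obtain ⟨n, D, iF, iD, iA, φ, ι, ζ, hn, -, hφι, hιm, hιa, hι1, hιφ, -, hζp, hζ1⟩ :=
    Vale.Agent.P180.R2.H47.Bm.exists_comp (K := K) (A := Φ.range) (p := p)
      (x := ⟨tE (x : E ≃ₗ[K] E), hmem x⟩) (y := ⟨tE (y : E ≃ₗ[K] E), hmem y⟩)
      (z := ⟨tE (z : E ≃ₗ[K] E), hmem z⟩) (hu x) (hu y)
      (by rw [hval, hval, hval]; exact Subtype.ext (by rw [hxy]))
      (by
        intro a
        apply Subtype.ext
        refine hcomm (tE (z : E ≃ₗ[K] E)) (fun q => ?_) a a.2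
        change tE ((z * q : S) : E ≃ₗ[K] E) = tE ((q * z : S) : E ≃ₗ[K] E)
        rw [hz q])
      (by
        apply Subtype.ext
        change (tE (z : E ≃ₗ[K] E)) ^ p = 1
        rw [← map_pow, ← Subgroup.coe_pow, hzp]
        rfl)
      (by
        intro h
        apply hz1
        apply Subtype.ext
        exact tE_injective (congrArg Subtype.val h))
  -- the embedding of the units of the component
  let e1 : Φ.range := ι 1
  have h11 : ι 1 * ι 1 = ι 1 := by rw [← hιm, mul_one]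
  let θ : Matrix (Fin n) (Fin n) D →* Φ.range :=
    { toFun := fun M => ι M + (1 - ι 1)
      map_one' := by abel
      map_mul' := fun M N => by
        have h3 : ι M * ι 1 = ι M := by rw [← hιm, mul_one]
        have h4 : ι 1 * ι N = ι N := by rw [← hιm, one_mul]
        rw [hιm, add_mul, mul_add, mul_add, mul_sub, mul_sub, sub_mul, mul_one, mul_one, one_mul,
          h3, h4, sub_mul, one_mul, h11]
        abel }
  have hφθ : ∀ M, φ (θ M) = M := by
    intro M
    change φ (ι M + (1 - ι 1)) = M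
    rw [map_add, map_sub, hφι, hφι, map_one, sub_self, add_zero]
  let η : (Φ.range)ˣ →* (E ≃ₗ[K] E) :=
    (LinearMap.GeneralLinearGroup.generalLinearEquiv K E : _ →* (E ≃ₗ[K] E)).comp
      (Units.map (Φ.range.val : Φ.range →* End K E))
  have hη : ∀ u, tE (η u) = ((u : Φ.range) : End K E) := fun u => rfl
  let Θ : (Matrix (Fin n) (Fin n) D)ˣ →* (E ≃ₗ[K] E) := η.comp (Units.map θ)
  have hΘ : ∀ u, tE (Θ u) = ((θ (u : Matrix (Fin n) (Fin n) D) : Φ.range) : End K E) := fun u => rfl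
  have hΘinj : Function.Injective Θ := by
    intro u v huv
    have h3 := congrArg tE huv
    rw [hΘ, hΘ] at h3
    have h4 : θ (u : Matrix (Fin n) (Fin n) D) = θ (v : Matrix (Fin n) (Fin n) D) := Subtype.ext h3
    have h5 := congrArg φ h4
    rw [hφθ, hφθ] at h5
    exact Units.ext h5
  -- the group of units
  let U : Subgroup (E ≃ₗ[K] E) := η.range
  have hSU : S ≤ U := by
    intro s hs
    obtain ⟨u, hu⟩ := hu ⟨s, hs⟩
    refine ⟨u, ?_⟩
    apply tE_injective
    rw [hη, hu]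
  have hUmem : ∀ u ∈ U, tE u ∈ Φ.range := by
    rintro _ ⟨u, rfl⟩
    rw [hη]
    exact (u : Φ.range).2
  have hΘU : ∀ u, Θ u ∈ U := fun u => ⟨_, rfl⟩
  let Sy : Sylow p U :=
    { S.subgroupOf U with
      isPGroup' := hS.comap_subtype
      is_maximal' := by
        intro Q hQ hSQ
        change Q = S.subgroupOf U
        change S.subgroupOf U ≤ Q at hSQ
        have h3 : Q.map U.subtype = S := by
          apply hmax
          · exact hQ.map _
          · intro s hs
            exact ⟨⟨s, hSU hs⟩, hSQ hs, rfl⟩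
          · rintro _ ⟨q, _, rfl⟩
            exact hspan _ (hUmem _ q.2)
        ext q
        rw [Subgroup.mem_subgroupOf, ← h3]
        constructor
        · intro hq
          exact ⟨q, hq, rfl⟩
        · rintro ⟨q', hq', h4⟩
          have h5 : q' = q := Subtype.ext h4
          rwa [← h5] }
  obtain ⟨ζu, hζu⟩ : ∃ u : Dˣ, (u : D) = ζ := by
    have h0 : ζ ≠ 0 := by
      rintro rfl
      rw [zero_pow hp.out.ne_zero] at hζp
      exact zero_ne_one hζp
    exact ⟨Units.mk0 ζ h0, rfl⟩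
  obtain ⟨P, C, Dm, hP, hC, hD, hCD, hCp, ⟨w, hw⟩, a, b, hDab⟩ :=
    exists_engPair (F := D) (n := Fin n) hp.out (by rw [Fintype.card_fin]; exact hn) (ζ := ζu)
      (Units.ext (by rw [Units.val_pow_eq_pow_val, hζu, hζp, Units.val_one]))
      (fun h => hζ1 (by rw [← hζu, h, Units.val_one]))
  have hP' : IsPGroup p ((P.map Θ).subgroupOf U) := (hP.map Θ).comap_subtype
  obtain ⟨Q, hQ⟩ := hP'.exists_le_sylow
  obtain ⟨g, hg⟩ := MulAction.exists_smul_eq U Q Sy
  have hgP : ∀ t ∈ P, (g : E ≃ₗ[K] E) * Θ t * (g : E ≃ₗ[K] E)⁻¹ ∈ S := by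
    intro t ht
    have h3 : (⟨Θ t, hΘU t⟩ : U) ∈ (Q : Subgroup U) := hQ ⟨t, ht, rfl⟩
    have h4 : g * ⟨Θ t, hΘU t⟩ * g⁻¹ ∈ ((g • Q : Sylow p U) : Subgroup U) := by
      rw [Sylow.smul_def, Sylow.pointwise_smul_def]
      exact Subgroup.smul_mem_pointwise_smul _ (MulAut.conj g) _ h3
    rw [hg] at h4
    exact h4
  have hχD : χ (Θ Dm) = 1 := by
    rw [hDab]
    simp only [map_mul, map_inv]
    rw [mul_right_comm (χ (Θ a)), mul_inv_cancel, one_mul, mul_inv_cancel]
  have hχC : χ (Θ C) = 1 := by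
    have h3 := congrArg (fun t => χ (Θ t)) hw
    simp only [map_mul, map_inv] at h3
    rw [mul_right_comm, mul_inv_cancel, one_mul] at h3
    have h4 : χ (Θ C) ^ 2 = 1 := by
      rw [pow_two]
      nth_rewrite 1 [h3]
      exact inv_mul_cancel _
    have h5 : χ (Θ C) ^ p = 1 := by rw [← map_pow, ← map_pow, hCp, map_one, map_one]
    have h6 : Nat.Coprime 2 p := by
      rw [Nat.coprime_primes Nat.prime_two hp.out]
      exact h2.symm
    have h7 : orderOf (χ (Θ C)) ∣ Nat.gcd 2 p :=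
      Nat.dvd_gcd (orderOf_dvd_of_pow_eq_one h4) (orderOf_dvd_of_pow_eq_one h5)
    rw [h6] at h7
    exact orderOf_eq_one_iff.mp (Nat.dvd_one.mp h7)
  have hconj : ∀ t, χ t = 1 → χ ((g : E ≃ₗ[K] E) * t * (g : E ≃ₗ[K] E)⁻¹) = 1 := by
    intro t ht
    rw [map_mul, map_mul, ht, mul_one, map_inv, mul_inv_cancel]
  have h3 := hab _ (hgP C hC) _ (hgP Dm hD) (hconj _ hχC) (hconj _ hχD)
  have h4 := cm_map ((MulAut.conj (g : E ≃ₗ[K] E)).toMonoidHom.comp Θ) C Dm (p - 2)
  have h5 : ((MulAut.conj (g : E ≃ₗ[K] E)).toMonoidHom.comp Θ) ((cm C)^[p - 2] Dm) = 1 :=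
    h4.trans h3
  have h6 : Function.Injective ((MulAut.conj (g : E ≃ₗ[K] E)).toMonoidHom.comp Θ) :=
    (MulAut.conj (g : E ≃ₗ[K] E)).injective.comp hΘinj
  have h7 : (cm C)^[p - 2] Dm = 1 := h6 (h5.trans (map_one _).symm)
  exact hCD (p - 2) (by have := hp.out.two_le; omega) h7

end

/-- **Row (A)** with an Engel condition. -/
theorem rowE {p : ℕ} [Fact p.Prime] (h2 : p ≠ 2) {K V : Type} [Field K] [Finite K]
    [AddCommGroup V] [Module K V] [Finite V] (hpK : ¬ p ∣ Nat.card K) (S : Subgroup (V ≃ₗ[K] V))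
    (hS : IsPGroup p S) (hmax : MaxIn p S)
    (hT : ∀ x ∈ S, ∀ y ∈ S, LinearMap.det (x : V →ₗ[K] V) = 1 →
      LinearMap.det (y : V →ₗ[K] V) = 1 → (fun t => x * t * x⁻¹ * t⁻¹)^[p - 2] y = 1) :
    ∀ x ∈ S, ∀ y ∈ S, x * y = y * x := by
  haveI : FiniteDimensional K V := Module.Finite.of_finite
  refine lemDE h2 hpK S hS (fun P hP hSP h => hmax P hSP hP h)
    (LinearEquiv.det : (V ≃ₗ[K] V) →* Kˣ) ?_
  intro x hx y hy e1 e2
  refine hT x hx y hy ?_ ?_
  · have h3 := congrArg Units.val e1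
    rwa [LinearEquiv.coe_det, Units.val_one] at h3
  · have h3 := congrArg Units.val e2
    rwa [LinearEquiv.coe_det, Units.val_one] at h3

/-- **Row (D')** -/
theorem rowC {p : ℕ} [hp : Fact p.Prime] (h2 : p ≠ 2) {K V : Type} [Field K] [Finite K]
    [AddCommGroup V] [Module K V] [Finite V] (hpK : ¬ p ∣ Nat.card K) (S : Subgroup (V ≃ₗ[K] V))
    (hS : IsPGroup p S) (hmax : MaxIn p S)
    (hT : ∀ x ∈ S, ∀ y ∈ S, LinearMap.det (x : V →ₗ[K] V) = 1 →
      LinearMap.det (y : V →ₗ[K] V) = 1 → x * y = y * x ∨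
        (5 ≤ p ∧ x * y * x⁻¹ * y⁻¹ ∈ Subgroup.center (V ≃ₗ[K] V))) :
    ∀ x ∈ S, ∀ y ∈ S, x * y = y * x := by
  refine rowE h2 hpK S hS hmax fun x hx y hy e1 e2 => ?_
  have h1 : ∀ r, (cm x)^[r] (1 : V ≃ₗ[K] V) = 1 := by
    intro r
    induction r with
    | zero => rfl
    | succ r ih =>
      rw [Function.iterate_succ_apply', ih]
      simp only [cm, mul_one, mul_inv_cancel, inv_one]
  change (cm x)^[p - 2] y = 1
  have hp3 : 3 ≤ p := by
    have := hp.out.two_le
    omega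
  rcases hT x hx y hy e1 e2 with h | ⟨h5, h⟩
  · obtain ⟨r, hr⟩ : ∃ r, p - 2 = r + 1 := ⟨p - 3, by omega⟩
    rw [hr, Function.iterate_succ_apply]
    have h3 : cm x y = 1 := by
      unfold cm
      rw [h, mul_inv_cancel_right, mul_inv_cancel]
    rw [h3, h1]
  · obtain ⟨r, hr⟩ : ∃ r, p - 2 = r + 1 + 1 := ⟨p - 4, by omega⟩
    rw [hr, Function.iterate_succ_apply, Function.iterate_succ_apply]
    have h3 : cm x (cm x y) = 1 := by
      have h4 : x * cm x y = cm x y * x := Subgroup.mem_center_iff.mp h x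
      change x * cm x y * x⁻¹ * (cm x y)⁻¹ = 1
      rw [h4, mul_inv_cancel_right, mul_inv_cancel]
    rw [h3, h1]

end Vale.Agent.P180.H574
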