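import Vale.Agent.P180.H574.LemDA

/-!
P180 H574: a `p`-group of monomial matrices of determinant one which has no Engel condition of length
`p - 2`.
-/

set_option linter.all false

namespace Vale.Agent.P180.H574

/-- the commutator with `x` -/
def cm {G : Type*} [Group G] (x : G) : G → G := fun t => x * t * x⁻¹ * t⁻¹

theorem cm_map {G H : Type*} [Group G] [Group H] (f : G →* H) (x y : G) (r : ℕ) :
    f ((cm x)^[r] y) = (cm (f x))^[r] (f y) := by
  induction r with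
  | zero => rfl
  | succ r ih =>
    rw [Function.iterate_succ_apply', Function.iterate_succ_apply', ← ih]
    simp only [cm, map_mul, map_inv]

section

variable {F : Type*} [Field F] {n : Type*} [Fintype n] [DecidableEq n]

/-- the difference operator -/
def TT (σ : Equiv.Perm n) (f : n → Fˣ) : n → Fˣ := fun i => f (σ⁻¹ i) * (f i)⁻¹

theorem cm_dg (σ : Equiv.Perm n) (f : n → Fˣ) : cm (pm F σ) (dg f) = dg (TT σ f) := by
  unfold cm
  rw [pm_dg_inv, ← map_inv, ← map_mul]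
  rfl

theorem cm_iter_dg (σ : Equiv.Perm n) (f : n → Fˣ) (r : ℕ) :
    (cm (pm F σ))^[r] (dg f) = dg ((TT σ)^[r] f) := by
  induction r with
  | zero => rfl
  | succ r ih => rw [Function.iterate_succ_apply', Function.iterate_succ_apply', ih, cm_dg]

/-- the orbit of a moved point of a permutation of prime order -/
theorem perm_ne {p : ℕ} (hp : p.Prime) {σ : Equiv.Perm n} (hσ : σ ^ p = 1) {a : n} (ha : σ a ≠ a)
    {j : ℕ} (h0 : 0 < j) (hj : j < p) : (σ ^ j) a ≠ a := by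
  intro h
  have h1 : Function.IsPeriodicPt σ p a := by
    change σ^[p] a = a
    rw [← Equiv.Perm.coe_pow, hσ]
    rfl
  have h2 : Function.IsPeriodicPt σ j a := by
    change σ^[j] a = a
    rw [← Equiv.Perm.coe_pow, h]
  have h3 : Function.IsPeriodicPt σ (Nat.gcd p j) a := h1.gcd h2
  have h4 : Nat.gcd p j = 1 := by
    rw [← Nat.coprime_iff_gcd_eq_one, Nat.Prime.coprime_iff_not_dvd hp]
    exact fun h => absurd (Nat.le_of_dvd h0 h) (by omega)
  rw [h4] at h3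
  exact ha h3

theorem TT_supp {p : ℕ} (hp : p.Prime) {σ : Equiv.Perm n} (hσ : σ ^ p = 1) {a : n} (ha : σ a ≠ a)
    (ζ : Fˣ) (r : ℕ) : ∀ j, r < j → j < p →
      ((TT σ)^[r] (Pi.mulSingle a ζ : n → Fˣ)) ((σ ^ j) a) = 1 := by
  induction r with
  | zero =>
    intro j h0 hj
    change (Pi.mulSingle a ζ : n → Fˣ) ((σ ^ j) a) = 1
    rw [Pi.mulSingle_eq_of_ne (perm_ne hp hσ ha h0 hj)]
  | succ r ih =>
    intro j h0 hj
    rw [Function.iterate_succ_apply']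
    change ((TT σ)^[r] (Pi.mulSingle a ζ : n → Fˣ)) (σ⁻¹ ((σ ^ j) a)) *
      (((TT σ)^[r] (Pi.mulSingle a ζ : n → Fˣ)) ((σ ^ j) a))⁻¹ = 1
    rw [ih j (by omega) hj, inv_one, mul_one]
    obtain ⟨i, rfl⟩ : ∃ i, j = i + 1 := ⟨j - 1, by omega⟩
    have h1 : σ⁻¹ ((σ ^ (i + 1)) a) = (σ ^ i) a := by
      rw [pow_succ']
      exact σ.symm_apply_apply _
    rw [h1]
    exact ih i (by omega) (by omega)

theorem TT_ne {p : ℕ} (hp : p.Prime) {σ : Equiv.Perm n} (hσ : σ ^ p = 1) {a : n} (ha : σ a ≠ a)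
    {ζ : Fˣ} (hζ : ζ ≠ 1) (r : ℕ) (hr : r < p) :
      ((TT σ)^[r] (Pi.mulSingle a ζ : n → Fˣ)) a ≠ 1 := by
  induction r with
  | zero =>
    change (Pi.mulSingle a ζ : n → Fˣ) a ≠ 1
    rwa [Pi.mulSingle_eq_same]
  | succ r ih =>
    rw [Function.iterate_succ_apply']
    change ((TT σ)^[r] (Pi.mulSingle a ζ : n → Fˣ)) (σ⁻¹ a) *
      (((TT σ)^[r] (Pi.mulSingle a ζ : n → Fˣ)) a)⁻¹ ≠ 1
    have h1 : σ⁻¹ a = (σ ^ (p - 1)) a := by
      have h2 : σ⁻¹ = σ ^ (p - 1) := by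
        rw [inv_eq_iff_mul_eq_one, ← pow_succ', Nat.sub_add_cancel hp.pos, hσ]
      rw [h2]
    rw [h1, TT_supp hp hσ ha ζ r (p - 1) (by omega) (by have := hp.pos; omega), one_mul]
    intro h
    exact ih (by omega) (inv_eq_one.mp h)

/-- **A `p`-group of monomial matrices of determinant one and of large class.** -/
theorem exists_engPair {p : ℕ} (hp : p.Prime) (hn : p ≤ Fintype.card n) {ζ : Fˣ}
    (hζ : ζ ^ p = 1) (hζ1 : ζ ≠ 1) :
    ∃ (P : Subgroup (Matrix n n F)ˣ) (C D : (Matrix n n F)ˣ), IsPGroup p P ∧ C ∈ P ∧ D ∈ P ∧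
      (∀ r, r + 1 < p → (cm C)^[r] D ≠ 1) ∧ C ^ p = 1 ∧ (∃ w, w * C * w⁻¹ = C⁻¹) ∧
      ∃ a b, D = a * b * a⁻¹ * b⁻¹ := by
  haveI : Fact p.Prime := ⟨hp⟩
  have hdvd : p ∣ Fintype.card (Equiv.Perm n) := by
    rw [Fintype.card_perm]
    exact Nat.dvd_factorial hp.pos hn
  obtain ⟨σ, hσ⟩ := exists_prime_orderOf_dvd_card p hdvd
  have hσp : σ ^ p = 1 := by rw [← hσ]; exact pow_orderOf_eq_one σ
  have hσ1 : σ ≠ 1 := by
    rintro rfl
    rw [orderOf_one] at hσ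
    exact hp.one_lt.ne hσ
  obtain ⟨a, ha⟩ : ∃ a, σ a ≠ a := by
    by_contra h
    push Not at h
    exact hσ1 (Equiv.ext h)
  have hCp : (pm F σ) ^ p = 1 := by rw [← map_pow, hσp, map_one]
  let K0 : Subgroup (Matrix n n F)ˣ := Subgroup.map dg (powMonoidHom p : (n → Fˣ) →* (n → Fˣ)).ker
  have hK0 : ∀ f : n → Fˣ, f ^ p = 1 → dg f ∈ K0 := fun f hf => ⟨f, hf, rfl⟩
  have hK0' : ∀ x ∈ K0, ∃ f : n → Fˣ, f ^ p = 1 ∧ dg f = x := by
    rintro x ⟨f, hf, rfl⟩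
    exact ⟨f, hf, rfl⟩
  have hpk : IsPGroup p K0 := by
    rintro ⟨x, hx⟩
    obtain ⟨f, hf, rfl⟩ := hK0' x hx
    refine ⟨1, Subtype.ext ?_⟩
    change (dg f) ^ p ^ 1 = 1
    rw [pow_one, ← map_pow, hf, map_one]
  have hpc : IsPGroup p (Subgroup.zpowers (pm F σ)) := by
    rintro ⟨x, k, rfl⟩
    refine ⟨1, Subtype.ext ?_⟩
    change ((pm F σ) ^ k) ^ p ^ 1 = 1
    rw [pow_one, ← zpow_natCast, ← zpow_mul, mul_comm, zpow_mul, zpow_natCast, hCp, one_zpow]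
  have hfp : ∀ (f : n → Fˣ) (τ : Equiv.Perm n), f ^ p = 1 → (fun i => f (τ i)) ^ p = 1 := by
    intro f τ hf
    funext i
    exact congrFun hf (τ i)
  have hnorm : Subgroup.zpowers (pm F σ) ≤ Subgroup.normalizer (K0 : Set (Matrix n n F)ˣ) := by
    rw [Subgroup.zpowers_le, Subgroup.mem_normalizer_iff]
    intro x
    constructor
    · intro hx
      obtain ⟨f, hf, rfl⟩ := hK0' x hx
      rw [pm_dg_inv]
      exact hK0 _ (hfp f _ hf)
    · intro hx
      obtain ⟨f, hf, h1⟩ := hK0' _ hx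
      have h4 : x = dg (fun i => f (σ i)) := by
        have h5 := pm_dg_inv σ (fun i => f (σ i))
        have h6 : (fun i => f (σ (σ⁻¹ i))) = f := by
          funext i
          simp
        rw [h6, h1] at h5
        have h7 := mul_right_cancel h5
        exact (mul_left_cancel h7).symm
      rw [h4]
      exact hK0 _ (hfp f _ hf)
  have h3 : (Pi.mulSingle a ζ : n → Fˣ) ^ p = 1 := by
    rw [← Pi.mulSingle_pow, hζ, Pi.mulSingle_one]
  have hDp : (TT σ (Pi.mulSingle a ζ) : n → Fˣ) ^ p = 1 := by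
    funext i
    change ((Pi.mulSingle a ζ : n → Fˣ) (σ⁻¹ i) * ((Pi.mulSingle a ζ : n → Fˣ) i)⁻¹) ^ p = 1
    rw [mul_pow, inv_pow]
    have h4 : ∀ j, (Pi.mulSingle a ζ : n → Fˣ) j ^ p = 1 := fun j => congrFun h3 j
    rw [h4, h4, inv_one, one_mul]
  refine ⟨Subgroup.zpowers (pm F σ) ⊔ K0, pm F σ, dg (TT σ (Pi.mulSingle a ζ)),
    IsPGroup.to_sup_of_normal_right' hpc hpk hnorm,
    Subgroup.mem_sup_left (Subgroup.mem_zpowers _), Subgroup.mem_sup_right (hK0 _ hDp),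
    ?_, hCp, ?_, ⟨pm F σ, dg (Pi.mulSingle a ζ), (cm_dg σ _).symm⟩⟩
  · intro r hr h
    rw [cm_iter_dg, ← Function.iterate_succ_apply] at h
    have h1 : (TT σ)^[r + 1] (Pi.mulSingle a ζ : n → Fˣ) = 1 := by
      apply dg_injective
      rw [h, map_one]
    exact TT_ne hp hσp ha hζ1 (r + 1) hr (congrFun h1 a)
  · have h3 : IsConj σ σ⁻¹ := by
      rw [Equiv.Perm.isConj_iff_cycleType_eq, Equiv.Perm.cycleType_inv]
    obtain ⟨τ, hτ⟩ := isConj_iff.mp h3
    refine ⟨pm F τ, ?_⟩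
    rw [← map_inv, ← map_mul, ← map_mul, hτ, map_inv]

end

end Vale.Agent.P180.H574
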