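import Vale.Agent.P180.H574.Pds
import Vale.Agent.P180.H392.IndDef

/-!
P180 H574: one pair splits off.
-/

set_option linter.all false

namespace Vale.Agent.P180.H574

open Module Vale.Agent.P180.R2.H854 Vale.Agent.P180.H393.Fm Vale.Agent.P180.H951
  Vale.Agent.P180.H392 Vale.Agent.P180.H392.Res

section

variable {K E : Type} [Field K] [AddCommGroup E] [Module K E] {Φ : HForm K E} {ι : Type}
  [Fintype ι] [DecidableEq ι] {P : Hyp Φ ι} {Q : Subgroup (E ≃ₗ[K] E)}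

theorem app_x (c : W P ≃ₗ[K] W P) (g : (ι → K) ≃ₗ[K] (ι → K)) (a : ι → K) :
    (ext P c * P.gl g) (P.x a) = P.x (g a) := by
  change ext P c (P.gl g (P.x a)) = _
  rw [P.gl_x, ext_x]

theorem app_w (c : W P ≃ₗ[K] W P) (g : (ι → K) ≃ₗ[K] (ι → K)) (w : W P) :
    (ext P c * P.gl g) ((W P).subtype w) = (W P).subtype (c w) := by
  change ext P c (P.gl g (w : E)) = ((c w : W P) : E)
  rw [P.gl_w g (mem_W.mp w.2).1 (mem_W.mp w.2).2, ext_coe]

theorem exists_pair (hQ : Q ≤ MM P) {q : E ≃ₗ[K] E} (hq : q ∈ Q) :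
    ∃ (c : IsoG (res P)) (g : (ι → K) ≃ₗ[K] (ι → K)), q = ext P (c : W P ≃ₗ[K] W P) * P.gl g := by
  refine ⟨((mmE P).symm ⟨q, hQ hq⟩).1, ((mmE P).symm ⟨q, hQ hq⟩).2, ?_⟩
  have h := mmE_coe P ((mmE P).symm ⟨q, hQ hq⟩)
  rw [MulEquiv.apply_symm_apply] at h
  exact h

theorem img_QA (hQ : Q ≤ MM P) : Img P.x Q (QA P Q) where
  fwd q hq := by
    obtain ⟨c, g, rfl⟩ := exists_pair hQ hq
    exact ⟨g, mem_QA.mpr ⟨c, hq⟩, fun v => app_x _ _ v⟩
  bwd g hg := by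
    obtain ⟨c, hc⟩ := mem_QA.mp hg
    exact ⟨_, hc, fun v => app_x _ _ v⟩

theorem img_QW (hQ : Q ≤ MM P) : Img (W P).subtype Q (QW P Q) where
  fwd q hq := by
    obtain ⟨c, g, rfl⟩ := exists_pair hQ hq
    exact ⟨c, ⟨c, mem_QC.mpr ⟨g, hq⟩, rfl⟩, fun v => app_w _ _ v⟩
  bwd q' hq' := by
    obtain ⟨c, hc, rfl⟩ := hq'
    obtain ⟨g, hg⟩ := mem_QC.mp hc
    exact ⟨_, hg, fun v => app_w _ _ v⟩

end

section

variable {K E : Type} [Field K] [Finite K] [AddCommGroup E] [Module K E] [FiniteDimensional K E]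
  {Φ : HForm K E} {ι : Type} [Fintype ι] [DecidableEq ι] {P : Hyp Φ ι} {Q : Subgroup (E ≃ₗ[K] E)}
  {r : ℕ}

/-- **The pair of one of the projections is a good pair.** -/
theorem goodHyp (D : PD Φ Q r) {i : Fin r} (h : Fits P (D.e i)) (hQ : Q ≤ IsoG Φ)
    (hab : ∀ x ∈ Q, ∀ y ∈ Q, x * y = y * x) : GoodHyp P Q := by
  have hM : Q ≤ MM P := fun g hg => ⟨hQ hg, comm_mem_of_mem D h hQ hab hg⟩
  refine ⟨?_, hM, fun g hi hg => ⟨hi, comm_mem D h hi hg⟩, fun u hu hg => eq_one_of_comm D h hu hg,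
    homOn_top D h (img_QA hM), img_ne_bot D h (img_QA hM)⟩
  by_contra hne
  rw [not_nonempty_iff] at hne
  obtain ⟨q, hq, h1⟩ := D.nt i
  apply h1
  have h2 : D.e i = 0 := by
    ext v
    have h3 : P.px v = 0 := Subsingleton.elim _ _
    rw [h.ex, h3, map_zero]
    rfl
  rw [h2, mul_zero]

/-- **One pair splits off.** -/
theorem pdStep : PdStepStmt := by
  intro p _ K _ _ E _ _ _ Φ Q r _ hQ _ hab D
  obtain ⟨P, hP⟩ := exists_last D
  have h := goodHyp D hP hQ hab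
  exact ⟨_, inferInstance, inferInstance, P, h, ⟨step D hP hQ hab (img_QW h.le)⟩⟩

end

end Vale.Agent.P180.H574
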