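import Vale.Agent.P180.H574.FixB
import Vale.Agent.P180.H386.Sig

/-!
P180 H574 (H2), final form: a `p`-group which acts on a central quotient of a special linear group and
fixes the `p`-elements over its intersection acts through the general linear group.
-/

set_option linter.all false

namespace Vale.Agent.P180.H574

open Module Subgroup Vale.Agent.P180 Vale.Agent.P180.H768.Gd Vale.Agent.P180.R2.H799
  Vale.Agent.P180.R2.H954
open Vale.Agent.P180.R2.H471.Au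
open Vale.Agent.P180.H568.Out (cjS)

universe u

theorem sigNc {p : ℕ} [Fact p.Prime] (h2 : p ≠ 2) {K : Type} [Field K] [Finite K]
    (hpK : ¬ p ∣ Nat.card K) {V : Type} [AddCommGroup V] [Module K V] [FiniteDimensional K V] :
    SigNc p K V :=
  fun hp1 _ hQp hnc hQ _ _ hg hgQ _ hσ =>
    Vale.Agent.P180.H386.sigma_eq_one_nc h2 (cast_ne hpK) hp1 hQp hnc hQ hg hgQ hσ

/-- **(H2)** -/
theorem thru_gl {p : ℕ} [hp : Fact p.Prime] {k : Type u} [Field k] [IsAlgClosed k] [CharP k p]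
    {K : Type} [Field K] [Finite K] {d : ℕ} {G : Type} [Group G] [Finite G] {R L : Subgroup G}
    {π : SpecialLinearGroup K (Fin d → K) →* L} {e z : MonoidAlgebra k G} (h2 : p ≠ 2)
    (hpK : ¬ p ∣ Nat.card K) (hd : 3 ≤ d) (hR : IsPGroup p R)
    (hn : ∀ x ∈ R, ∀ s ∈ L, x * s * x⁻¹ ∈ L) (hπ : Function.Surjective π)
    (hk : π.ker ≤ Subgroup.center _) (he : IsBlockOf L e) (hz : z ∈ SubAlg k L)
    (hzF : z ∈ Fix (cj k G) (L ⊓ R)) (hez : e = tr (cj k G) (L ⊓ R) L z) (hbr : br R e ≠ 0)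
    (hnc : ∃ x ∈ R, x ∈ L ∧ ¬ ∀ y ∈ L, x * y = y * x)
    (heng : ∀ x ∈ (R.subgroupOf L).comap π, ∀ y ∈ (R.subgroupOf L).comap π,
      (fun t => x * t * x⁻¹ * t⁻¹)^[max 1 (p - 2)] y = 1)
    (hβ : ∀ r ∈ R, ∃ β : MulAut (SpecialLinearGroup K (Fin d → K)),
      (∀ s, ((π (β s) : L) : G) = r * (π s : L) * r⁻¹) ∧
        ∀ s, (∃ j, s ^ p ^ j = 1) → ((π s : L) : G) ∈ R → β s = s) :
    ∀ r ∈ R, ∃ g : (Fin d → K) ≃ₗ[K] (Fin d → K), ∀ x,
      ((π (cjS g x) : L) : G) = r * (π x : L) * r⁻¹ := by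
  refine thru_gl_of (sigNc h2 hpK) hR h2 hn hd hpK hπ hk ?_ hβ hnc he hbr hz hzF hez
  intro x y hx hy
  have h := heng x hx y hy
  have := hp.out.two_le
  have e : max 1 (p - 2) = p - 2 := by omega
  rwa [e] at h

end Vale.Agent.P180.H574
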