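import Vale.Agent.P180.H574.LemD
import Vale.Agent.P180.H951.SlAll

/-!
P180 H574 (N1): a maximal `p`-subgroup which is not commutative is large.
-/

set_option linter.all false

namespace Vale.Agent.P180.H574

open Module Vale.Agent.P180.H951

section

variable {F : Type*} [Field F] {n : Type*} [Fintype n] [DecidableEq n]

/-- a permutation matrix which is diagonal is one -/
theorem dg_eq_pm {f : n → Fˣ} {τ : Equiv.Perm n} (h : dg f = pm F τ) : τ = 1 := by
  apply Equiv.ext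
  intro j
  by_contra hj
  have hj' : τ j ≠ j := hj
  have h1 : ((dg f : (Matrix n n F)ˣ) : Matrix n n F) (τ j) j =
      ((pm F τ : (Matrix n n F)ˣ) : Matrix n n F) (τ j) j := by rw [h]
  rw [dg_coe, pm_coe, Matrix.diagonal_apply_ne _ hj', Matrix.of_apply, if_pos rfl] at h1
  exact zero_ne_one h1

/-- a large `p`-group of monomial matrices -/
theorem exists_large {p : ℕ} (hp : p.Prime) (hn : p ≤ Fintype.card n) {γ : Fˣ} {a : ℕ}
    (hγ : orderOf γ = p ^ a) [Finite (Matrix n n F)ˣ] :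
    ∃ P : Subgroup (Matrix n n F)ˣ, IsPGroup p P ∧
      p * (p ^ a) ^ Fintype.card n ≤ Nat.card P := by
  haveI : Fact p.Prime := ⟨hp⟩
  have hdvd : p ∣ Fintype.card (Equiv.Perm n) := by
    rw [Fintype.card_perm]
    exact Nat.dvd_factorial hp.pos hn
  obtain ⟨σ, hσ⟩ := exists_prime_orderOf_dvd_card p hdvd
  have hσp : σ ^ p = 1 := by rw [← hσ]; exact pow_orderOf_eq_one σ
  have hCp : (pm F σ) ^ p = 1 := by rw [← map_pow, hσp, map_one]
  have hγp : γ ^ p ^ a = 1 := by rw [← hγ]; exact pow_orderOf_eq_one γ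
  let K0 : Subgroup (Matrix n n F)ˣ :=
    Subgroup.map dg (powMonoidHom (p ^ a) : (n → Fˣ) →* (n → Fˣ)).ker
  have hK0 : ∀ f : n → Fˣ, f ^ p ^ a = 1 → dg f ∈ K0 := fun f hf => ⟨f, hf, rfl⟩
  have hK0' : ∀ x ∈ K0, ∃ f : n → Fˣ, f ^ p ^ a = 1 ∧ dg f = x := by
    rintro x ⟨f, hf, rfl⟩
    exact ⟨f, hf, rfl⟩
  have hpk : IsPGroup p K0 := by
    rintro ⟨x, hx⟩
    obtain ⟨f, hf, rfl⟩ := hK0' x hx
    refine ⟨a, Subtype.ext ?_⟩
    change (dg f) ^ p ^ a = 1
    rw [← map_pow, hf, map_one]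
  have hpc : IsPGroup p (Subgroup.zpowers (pm F σ)) := by
    rintro ⟨x, k, rfl⟩
    refine ⟨1, Subtype.ext ?_⟩
    change ((pm F σ) ^ k) ^ p ^ 1 = 1
    rw [pow_one, ← zpow_natCast, ← zpow_mul, mul_comm, zpow_mul, zpow_natCast, hCp, one_zpow]
  have hfp : ∀ (f : n → Fˣ) (τ : Equiv.Perm n), f ^ p ^ a = 1 → (fun i => f (τ i)) ^ p ^ a = 1 := by
    intro f τ hf
    funext i
    exact congrFun hf (τ i)
  have hnorm : Subgroup.zpowers (pm F σ) ≤ Subgroup.normalizer (K0 : Set (Matrix n n F)ˣ) := by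
    rw [Subgroup.zpowers_le, Subgroup.mem_normalizer_iff]
    intro x
    constructor
    · intro hx
      obtain ⟨f, hf, rfl⟩ := hK0' x hx
      rw [pm_dg_inv]
      exact hK0 _ (hfp f _ hf)
    · intro hx
      obtain ⟨f, hf, h1⟩ := hK0' _ hx
      have h4 : x = dg (fun i => f (σ i)) := by
        have h5 := pm_dg_inv σ (fun i => f (σ i))
        have h6 : (fun i => f (σ (σ⁻¹ i))) = f := by
          funext i
          simp
        rw [h6, h1] at h5
        have h7 := mul_right_cancel h5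
        exact (mul_left_cancel h7).symm
      rw [h4]
      exact hK0 _ (hfp f _ hf)
  refine ⟨Subgroup.zpowers (pm F σ) ⊔ K0, IsPGroup.to_sup_of_normal_right' hpc hpk hnorm, ?_⟩
  -- the cardinality
  let Φ : (n → Subgroup.zpowers γ) × Subgroup.zpowers σ →
      (Subgroup.zpowers (pm F σ) ⊔ K0 : Subgroup (Matrix n n F)ˣ) := fun x =>
    ⟨dg (fun i => ((x.1 i : Subgroup.zpowers γ) : Fˣ)) * pm F (x.2 : Equiv.Perm n), by
      refine Subgroup.mul_mem _ (Subgroup.mem_sup_right (hK0 _ ?_)) (Subgroup.mem_sup_left ?_)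
      · funext i
        obtain ⟨k, hk⟩ := (x.1 i).2
        change (((x.1 i : Subgroup.zpowers γ) : Fˣ)) ^ p ^ a = 1
        rw [← hk]
        change (γ ^ k) ^ p ^ a = 1
        rw [← zpow_natCast, ← zpow_mul, mul_comm, zpow_mul, zpow_natCast, hγp, one_zpow]
      · obtain ⟨k, hk⟩ := x.2.2
        refine ⟨k, ?_⟩
        rw [← hk]
        exact (map_zpow (pm F) σ k).symm⟩
  have hΦ : Function.Injective Φ := by
    rintro ⟨f, c⟩ ⟨f', c'⟩ h
    have h1 : dg (fun i => ((f i : Subgroup.zpowers γ) : Fˣ)) * pm F (c : Equiv.Perm n) =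
        dg (fun i => ((f' i : Subgroup.zpowers γ) : Fˣ)) * pm F (c' : Equiv.Perm n) :=
      congrArg Subtype.val h
    have h2 : dg ((fun i => ((f' i : Subgroup.zpowers γ) : Fˣ))⁻¹ *
        (fun i => ((f i : Subgroup.zpowers γ) : Fˣ))) =
        pm F ((c' : Equiv.Perm n) * (c : Equiv.Perm n)⁻¹) := by
      rw [map_mul, map_inv, map_mul, map_inv, eq_mul_inv_iff_mul_eq, mul_assoc, h1,
        inv_mul_cancel_left]
    have h3 : (c' : Equiv.Perm n) = c := by
      have := dg_eq_pm h2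
      exact mul_inv_eq_one.mp this
    rw [h3] at h1
    have h4 := dg_injective (mul_right_cancel h1)
    have h5 : f = f' := funext fun i => Subtype.ext (congrFun h4 i)
    rw [h5, Subtype.ext h3.symm]
  have h1 := Nat.card_le_card_of_injective Φ hΦ
  rw [Nat.card_prod, Nat.card_pi, Finset.prod_const, Nat.card_zpowers, Nat.card_zpowers, hγ, hσ,
    Finset.card_univ, mul_comm] at h1
  exact h1

end

section

variable {K E : Type} [Field K] [Finite K] [AddCommGroup E] [Module K E] [FiniteDimensional K E]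

/-- the units of a matrix factor of the enveloping algebra of a noncommutative group -/
theorem exists_emb {p : ℕ} [hp : Fact p.Prime] (hK : ¬ p ∣ Nat.card K)
    (S : Subgroup (E ≃ₗ[K] E)) (hS : IsPGroup p S)
    (hmax : ∀ P : Subgroup (E ≃ₗ[K] E), IsPGroup p P → S ≤ P →
      (∀ x ∈ P, tE x ∈ Submodule.span K (Set.range fun s : S => tE (s : E ≃ₗ[K] E))) → P = S)
    (hcon : ¬ ∀ x ∈ S, ∀ y ∈ S, x * y = y * x) :
    ∃ (n : ℕ) (D : Type) (_ : Field D) (_ : Finite D) (_ : Algebra K D)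
      (Θ : (Matrix (Fin n) (Fin n) D)ˣ →* (E ≃ₗ[K] E)), p ≤ n ∧ Function.Injective Θ ∧
      ∀ P : Subgroup (Matrix (Fin n) (Fin n) D)ˣ, IsPGroup p P → ∃ g : E ≃ₗ[K] E,
        ∀ t ∈ P, g * Θ t * g⁻¹ ∈ S := by
  classical
  have hEfin : Finite E := Module.finite_of_finite K
  have hGfin : Finite (E ≃ₗ[K] E) :=
    Finite.of_injective (fun e : E ≃ₗ[K] E => (e : E → E)) DFunLike.coe_injective
  have hne : ¬ ∀ x y : S, x * y = y * x := by
    intro h
    exact hcon fun x hx y hy => congrArg Subtype.val (h ⟨x, hx⟩ ⟨y, hy⟩)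
  obtain ⟨x, y, z, hxy, hz, hzp, hz1⟩ := exists_comm_pair hS hne
  -- the enveloping algebra
  let ρ : S →* End K E :=
    { toFun := fun q => tE (q : E ≃ₗ[K] E)
      map_one' := rfl
      map_mul' := fun _ _ => rfl }
  let Φ : MonoidAlgebra K S →ₐ[K] End K E := MonoidAlgebra.lift K (End K E) S ρ
  have hΦ : ∀ q : S, Φ (MonoidAlgebra.single q 1) = tE (q : E ≃ₗ[K] E) := by
    intro q
    change MonoidAlgebra.lift K (End K E) S ρ (MonoidAlgebra.single q 1) = _
    rw [MonoidAlgebra.lift_single, one_smul]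
    rfl
  have hspan : ∀ a ∈ Φ.range, a ∈ Submodule.span K (Set.range fun q : S => tE (q : E ≃ₗ[K] E)) := by
    rintro _ ⟨a, rfl⟩
    change Φ a ∈ _
    induction a using MonoidAlgebra.induction_linear with
    | zero => rw [map_zero]; exact Submodule.zero_mem _
    | add x y hx hy => rw [map_add]; exact Submodule.add_mem _ hx hy
    | single q c =>
      have h2 : MonoidAlgebra.single q c = c • MonoidAlgebra.single q (1 : K) := by
        rw [MonoidAlgebra.smul_single, smul_eq_mul, mul_one]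
      rw [h2, map_smul, hΦ]
      exact Submodule.smul_mem _ _ (Submodule.subset_span ⟨q, rfl⟩)
  have hmem : ∀ q : S, tE (q : E ≃ₗ[K] E) ∈ Φ.range := fun q => ⟨_, hΦ q⟩
  have hcomm : ∀ b : End K E, (∀ q : S, b * tE (q : E ≃ₗ[K] E) = tE (q : E ≃ₗ[K] E) * b) →
      ∀ a ∈ Φ.range, b * a = a * b := by
    rintro b hb _ ⟨a, rfl⟩
    change b * Φ a = Φ a * b
    induction a using MonoidAlgebra.induction_linear with
    | zero => simp
    | add x y hx hy => rw [map_add, mul_add, add_mul, hx, hy]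
    | single q c =>
      have h2 : MonoidAlgebra.single q c = c • MonoidAlgebra.single q (1 : K) := by
        rw [MonoidAlgebra.smul_single, smul_eq_mul, mul_one]
      rw [h2, map_smul, hΦ, mul_smul_comm, smul_mul_assoc, hb q]
  have hcard0 : (Nat.card S : K) ≠ 0 := by
    intro h0
    obtain ⟨m, hm⟩ := IsPGroup.iff_card.mp hS
    have hcop : Nat.Coprime (Nat.card S) (Nat.card K) := by
      rw [hm]
      exact Nat.Coprime.pow_left _ ((Nat.Prime.coprime_iff_not_dvd hp.out).mpr hK)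
    have h3 : IsCoprime (Nat.card S : ℤ) (Nat.card K : ℤ) := Nat.isCoprime_iff_coprime.mpr hcop
    obtain ⟨a, b, hab'⟩ := h3
    have h4 := congrArg (fun t : ℤ => (t : K)) hab'
    have h5 : (Nat.card K : K) = 0 := by
      have := Fintype.ofFinite K
      rw [Nat.card_eq_fintype_card]
      exact Nat.cast_card_eq_zero K
    simp only [Int.cast_add, Int.cast_mul, Int.cast_natCast, h0, h5, mul_zero, add_zero,
      Int.cast_one] at h4
    exact zero_ne_one h4
  haveI : NeZero (Nat.card S : K) := ⟨hcard0⟩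
  haveI : IsSemisimpleRing Φ.range :=
    RingHom.isSemisimpleRing_of_surjective (Φ.rangeRestrict : MonoidAlgebra K S →+* Φ.range)
      Φ.rangeRestrict_surjective
  have hu : ∀ q : S, IsUnit (⟨tE (q : E ≃ₗ[K] E), hmem q⟩ : Φ.range) := by
    intro q
    refine ⟨⟨⟨tE (q : E ≃ₗ[K] E), hmem q⟩, ⟨tE ((q⁻¹ : S) : E ≃ₗ[K] E), hmem q⁻¹⟩, ?_, ?_⟩, rfl⟩
    · exact Subtype.ext (tE_mul_inv (q : E ≃ₗ[K] E))
    · exact Subtype.ext (tE_inv_mul (q : E ≃ₗ[K] E))
  have hval : ∀ a b : S, (⟨tE (a : E ≃ₗ[K] E), hmem a⟩ : Φ.range) *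
      ⟨tE (b : E ≃ₗ[K] E), hmem b⟩ = ⟨tE ((a * b : S) : E ≃ₗ[K] E), hmem (a * b)⟩ := fun a b =>
    Subtype.ext rfl
  obtain ⟨n, D, iF, iD, iA, φ, ι, ζ, hn, -, hφι, hιm, hιa, hι1, hιφ, -, hζp, hζ1⟩ :=
    Vale.Agent.P180.R2.H47.Bm.exists_comp (K := K) (A := Φ.range) (p := p)
      (x := ⟨tE (x : E ≃ₗ[K] E), hmem x⟩) (y := ⟨tE (y : E ≃ₗ[K] E), hmem y⟩)
      (z := ⟨tE (z : E ≃ₗ[K] E), hmem z⟩) (hu x) (hu y)
      (by rw [hval, hval, hval]; exact Subtype.ext (by rw [hxy]))
      (by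
        intro a
        apply Subtype.ext
        refine hcomm (tE (z : E ≃ₗ[K] E)) (fun q => ?_) a a.2
        change tE ((z * q : S) : E ≃ₗ[K] E) = tE ((q * z : S) : E ≃ₗ[K] E)
        rw [hz q])
      (by
        apply Subtype.ext
        change (tE (z : E ≃ₗ[K] E)) ^ p = 1
        rw [← map_pow, ← Subgroup.coe_pow, hzp]
        rfl)
      (by
        intro h
        apply hz1
        apply Subtype.ext
        exact tE_injective (congrArg Subtype.val h))
  -- the embedding of the units of the component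
  let e1 : Φ.range := ι 1
  have h11 : ι 1 * ι 1 = ι 1 := by rw [← hιm, mul_one]
  let θ : Matrix (Fin n) (Fin n) D →* Φ.range :=
    { toFun := fun M => ι M + (1 - ι 1)
      map_one' := by abel
      map_mul' := fun M N => by
        have h3 : ι M * ι 1 = ι M := by rw [← hιm, mul_one]
        have h4 : ι 1 * ι N = ι N := by rw [← hιm, one_mul]
        rw [hιm, add_mul, mul_add, mul_add, mul_sub, mul_sub, sub_mul, mul_one, mul_one, one_mul,
          h3, h4, sub_mul, one_mul, h11]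
        abel }
  have hφθ : ∀ M, φ (θ M) = M := by
    intro M
    change φ (ι M + (1 - ι 1)) = M
    rw [map_add, map_sub, hφι, hφι, map_one, sub_self, add_zero]
  let η : (Φ.range)ˣ →* (E ≃ₗ[K] E) :=
    (LinearMap.GeneralLinearGroup.generalLinearEquiv K E : _ →* (E ≃ₗ[K] E)).comp
      (Units.map (Φ.range.val : Φ.range →* End K E))
  have hη : ∀ u, tE (η u) = ((u : Φ.range) : End K E) := fun u => rfl
  let Θ : (Matrix (Fin n) (Fin n) D)ˣ →* (E ≃ₗ[K] E) := η.comp (Units.map θ)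
  have hΘ : ∀ u, tE (Θ u) = ((θ (u : Matrix (Fin n) (Fin n) D) : Φ.range) : End K E) := fun u => rfl
  have hΘinj : Function.Injective Θ := by
    intro u v huv
    have h3 := congrArg tE huv
    rw [hΘ, hΘ] at h3
    have h4 : θ (u : Matrix (Fin n) (Fin n) D) = θ (v : Matrix (Fin n) (Fin n) D) := Subtype.ext h3
    have h5 := congrArg φ h4
    rw [hφθ, hφθ] at h5
    exact Units.ext h5
  -- the group of units
  let U : Subgroup (E ≃ₗ[K] E) := η.range
  have hSU : S ≤ U := by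
    intro s hs
    obtain ⟨u, hu⟩ := hu ⟨s, hs⟩
    refine ⟨u, ?_⟩
    apply tE_injective
    rw [hη, hu]
  have hUmem : ∀ u ∈ U, tE u ∈ Φ.range := by
    rintro _ ⟨u, rfl⟩
    rw [hη]
    exact (u : Φ.range).2
  have hΘU : ∀ u, Θ u ∈ U := fun u => ⟨_, rfl⟩
  let Sy : Sylow p U :=
    { S.subgroupOf U with
      isPGroup' := hS.comap_subtype
      is_maximal' := by
        intro Q hQ hSQ
        change Q = S.subgroupOf U
        change S.subgroupOf U ≤ Q at hSQ
        have h3 : Q.map U.subtype = S := by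
          apply hmax
          · exact hQ.map _
          · intro s hs
            exact ⟨⟨s, hSU hs⟩, hSQ hs, rfl⟩
          · rintro _ ⟨q, _, rfl⟩
            exact hspan _ (hUmem _ q.2)
        ext q
        rw [Subgroup.mem_subgroupOf, ← h3]
        constructor
        · intro hq
          exact ⟨q, hq, rfl⟩
        · rintro ⟨q', hq', h4⟩
          have h5 : q' = q := Subtype.ext h4
          rwa [← h5] }
  refine ⟨n, D, iF, iD, iA, Θ, hn, hΘinj, fun P hP => ?_⟩
  have hP' : IsPGroup p ((P.map Θ).subgroupOf U) := (hP.map Θ).comap_subtype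
  obtain ⟨Q, hQ⟩ := hP'.exists_le_sylow
  obtain ⟨g, hg⟩ := MulAction.exists_smul_eq U Q Sy
  refine ⟨g, fun t ht => ?_⟩
  have h3 : (⟨Θ t, hΘU t⟩ : U) ∈ (Q : Subgroup U) := hQ ⟨t, ht, rfl⟩
  have h4 : g * ⟨Θ t, hΘU t⟩ * g⁻¹ ∈ ((g • Q : Sylow p U) : Subgroup U) := by
    rw [Sylow.smul_def, Sylow.pointwise_smul_def]
    exact Subgroup.smul_mem_pointwise_smul _ (MulAut.conj g) _ h3
  rw [hg] at h4
  exact h4

end

/-- **(N1)** -/
theorem rowN {p : ℕ} [hp : Fact p.Prime] {K V : Type} [Field K] [Finite K] [AddCommGroup V]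
    [Module K V] [Finite V] (hpK : ¬ p ∣ Nat.card K) (S : Subgroup (V ≃ₗ[K] V))
    (hS : IsPGroup p S) (hmax : MaxIn p S)
    (hc : Nat.card (S ⊓ (LinearEquiv.det : (V ≃ₗ[K] V) →* Kˣ).ker : Subgroup (V ≃ₗ[K] V)) <
      p * (ordProj[p] (Nat.card K - 1)) ^ (p - 1)) : ∀ x ∈ S, ∀ y ∈ S, x * y = y * x := by
  classical
  haveI : FiniteDimensional K V := Module.Finite.of_finite
  haveI hGfin : Finite (V ≃ₗ[K] V) :=
    Finite.of_injective (fun e : V ≃ₗ[K] V => (e : V → V)) DFunLike.coe_injective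
  by_contra hcon
  obtain ⟨n, D, iF, iD, iA, Θ, hn, hΘ, hP⟩ := exists_emb hpK S hS
    (fun P hP hSP h => hmax P hSP hP h) hcon
  have hN : Nat.card K - 1 ≠ 0 := by
    have := Finite.one_lt_card (α := K)
    omega
  -- the generator
  obtain ⟨γ₀, hγ₀⟩ := IsCyclic.exists_ofOrder_eq_natCard (α := Kˣ)
  rw [Nat.card_units] at hγ₀
  have e1 : ordProj[p] (Nat.card K - 1) * ordCompl[p] (Nat.card K - 1) = Nat.card K - 1 :=
    Nat.ordProj_mul_ordCompl_eq_self _ p
  have hc0 : ordCompl[p] (Nat.card K - 1) ≠ 0 := fun h => hN (by rw [← e1, h, mul_zero])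
  have hord : orderOf (γ₀ ^ ordCompl[p] (Nat.card K - 1)) =
      p ^ (Nat.card K - 1).factorization p := by
    have hd : ordCompl[p] (Nat.card K - 1) ∣ orderOf γ₀ := by
      rw [hγ₀]
      exact ⟨_, by rw [mul_comm]; exact e1.symm⟩
    rw [orderOf_pow_of_dvd hc0 hd, hγ₀]
    nth_rewrite 1 [← e1]
    exact Nat.mul_div_cancel _ (Nat.pos_of_ne_zero hc0)
  set a := (Nat.card K - 1).factorization p with ha
  let u : Kˣ →* Dˣ := Units.map (algebraMap K D : K →+* D).toMonoidHom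
  have hu : Function.Injective u := Units.map_injective (algebraMap K D).injective
  have hord' : orderOf (u (γ₀ ^ ordCompl[p] (Nat.card K - 1))) = p ^ a :=
    (orderOf_injective u hu _).trans hord
  obtain ⟨P, hPp, hPc⟩ := exists_large (n := Fin n) hp.out (by rwa [Fintype.card_fin]) hord'
  obtain ⟨g, hg⟩ := hP P hPp
  rw [Fintype.card_fin] at hPc
  -- the image in `S`
  let ψ : P →* (V ≃ₗ[K] V) := ((MulAut.conj g).toMonoidHom.comp Θ).comp P.subtype
  have hψ : Function.Injective ψ :=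
    ((MulAut.conj g).injective.comp hΘ).comp P.subtype_injective
  have hψS : ∀ t, ψ t ∈ S := fun t => hg t t.2
  let χ : P →* Kˣ := (LinearEquiv.det : (V ≃ₗ[K] V) →* Kˣ).comp ψ
  have h1 : Nat.card P = Nat.card χ.ker * Nat.card χ.range := by
    rw [Subgroup.card_eq_card_quotient_mul_card_subgroup χ.ker, mul_comm]
    congr 1
    exact Nat.card_congr (QuotientGroup.quotientKerEquivRange χ).toEquiv
  have h2 : Nat.card χ.range ≤ p ^ a := by
    have h3 : IsPGroup p χ.range := hPp.of_surjective χ.rangeRestrict χ.rangeRestrict_surjective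
    obtain ⟨b, hb⟩ := IsPGroup.iff_card.mp h3
    have h4 : Nat.card χ.range ∣ Nat.card K - 1 := by
      rw [← Nat.card_units]
      exact Subgroup.card_subgroup_dvd_card _
    rw [hb] at h4 ⊢
    exact Nat.pow_le_pow_right hp.out.pos ((hp.out.pow_dvd_iff_le_factorization hN).mp h4)
  have h3 : Nat.card χ.ker ≤
      Nat.card (S ⊓ (LinearEquiv.det : (V ≃ₗ[K] V) →* Kˣ).ker : Subgroup (V ≃ₗ[K] V)) := by
    refine Nat.card_le_card_of_injective (fun t : χ.ker =>
      (⟨ψ t, hψS t, t.2⟩ : (S ⊓ (LinearEquiv.det : (V ≃ₗ[K] V) →* Kˣ).ker :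
        Subgroup (V ≃ₗ[K] V)))) ?_
    intro t t' h
    exact Subtype.ext (hψ (congrArg Subtype.val h))
  have hpa : 0 < p ^ a := pow_pos hp.out.pos a
  have h4 : p * (p ^ a) ^ n ≤ Nat.card χ.ker * p ^ a :=
    hPc.trans (h1.le.trans (Nat.mul_le_mul_left _ h2))
  have h5 : p * (p ^ a) ^ (p - 1) * p ^ a ≤ p * (p ^ a) ^ n := by
    rw [mul_assoc, ← pow_succ, Nat.sub_add_cancel hp.out.pos]
    exact Nat.mul_le_mul_left _ (Nat.pow_le_pow_right hpa hn)
  have h6 : p * (p ^ a) ^ (p - 1) ≤ Nat.card χ.ker :=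
    Nat.le_of_mul_le_mul_right (h5.trans h4) hpa
  exact absurd (h6.trans h3) (not_le.mpr hc)

end Vale.Agent.P180.H574
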