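import Vale.Agent.P180.H6.EvEps
import Vale.Agent.P180.H393.Om

/-!
P180 H574: the self-adjoint primitive idempotent of an irreducible character of `GL`.
-/

set_option linter.all false

namespace Vale.Agent.P180.H574

open Vale.Agent.P180 Vale.Agent.P180.H6 Vale.Agent.P180.H337
open Vale.Agent.P180.H393 (IsIr ev Om X OmS X_isIr X_inj)

universe u v

variable {k : Type u} [Field k] [IsAlgClosed k] [CharZero k] {K : Type} [Field K] [Finite K]

open scoped Classical in
/-- **A self-adjoint primitive idempotent for a character of `GL`.** -/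
theorem exists_ep {F : Type*} [Field F] [IsAlgClosed F] {σ : F →+* F} (hσ : IsSg σ)
    {ι : Type} [Fintype ι] (ρ : Om k K) (hd : Fintype.card ι = ρ.deg) (j : F →+* k) :
    ∃ ε : MonoidAlgebra F ((ι → K) ≃ₗ[K] (ι → K)), ε * ε = ε ∧ stG σ ε = ε ∧ ε ≠ 0 ∧
      (∀ z, ∃ c : F, ε * z * ε = c • ε) ∧
      (∀ z, ∃ c : k, mc _ j ε * z * mc _ j ε = c • mc _ j ε) ∧
      mc _ j ε * mc _ j ε = mc _ j ε ∧ mc _ j ε ≠ 0 ∧
      ∀ w : Om k K, w.deg = Fintype.card ι →
        ev (X w (ι → K)) (mc _ j ε) = if w = ρ then 1 else 0 := by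
  have h1 : ∀ w : Om k K, w.deg = Fintype.card ι → Module.finrank K (ι → K) = w.deg := by
    intro w hw
    rw [Module.finrank_fintype_fun_eq_card, hw]
  obtain ⟨ε, e1, e2, e3, e4, e5, e6, e7, e8, e9⟩ :=
    exists_eps' hσ (X_isIr (V := ι → K) (h1 ρ hd.symm)) j
  refine ⟨ε, e1, e2, e3, e4, e5, e6, e7, fun w hw => ?_⟩
  by_cases h : w = ρ
  · subst h
    rw [if_pos rfl, e8]
  · rw [if_neg h]
    exact e9 _ (X_isIr (h1 w hw)) fun he => h (X_inj (h1 w hw) (h1 ρ hd.symm) he)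

end Vale.Agent.P180.H574
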