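import Vale.Agent.P180.H574.SlE
import Vale.Agent.P180.R2.H799.BV1
import Vale.Agent.P180.R2.H799.BNP2

/-!
P180 H574 (H2, first part): the block of a special linear group over a block of a central quotient;
its defect group is commutative.
-/

set_option linter.all false

namespace Vale.Agent.P180.H574

open Module Subgroup Vale.Agent.P180 Vale.Agent.P180.H768.Gd Vale.Agent.P180.R2.H471.Hc
  Vale.Agent.P180.R2.H799 Vale.Agent.P180.R2.H954 Vale.Agent.P180.H951
open Vale.Agent.P180.H19.Pidx (PrimStmt oneBd_pidx_of)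

universe u

variable {k : Type u} [Field k] [IsAlgClosed k] {p : ℕ} [Fact p.Prime] [CharP k p]

omit [IsAlgClosed k] [Fact p.Prime] [CharP k p] in
/-- `OneBd` with bound zero: there is no block with this defect group -/
theorem not_oneBd_zero {H : Type} [Group H] [Finite H] {Q : Subgroup H} {e a : MonoidAlgebra k H}
    (he : IsBlockOf (⊤ : Subgroup H) e) (ha : a ∈ Fix (cj k H) Q) (hea : e = tr (cj k H) Q ⊤ a)
    (hbr : br Q e ≠ 0) (h : OneBd k Q 0) : False := by
  have hfin : FiniteDimensional k (MonoidAlgebra k H) :=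
    Module.Finite.equiv (MonoidAlgebra.coeffLinearEquiv k (M := H) (S := k)).symm
  obtain ⟨i, hi, hii, hei, hbi, hdim⟩ := h e a he ha hea hbr
  have h1 := Submodule.finrank_eq_zero.mp (Nat.le_zero.mp hdim)
  have h2 : i ∈ NN (⊤ : Subalgebra k (MonoidAlgebra k H)) i i := ⟨trivial, hii, hii⟩
  rw [h1, Submodule.mem_bot] at h2
  apply hbi
  rw [h2]
  exact Vale.Agent.P180.R2.H365.br_self (Subalgebra.zero_mem _)

/-- a noncommutative subgroup with an Engel condition is not a defect group -/
theorem zero_of_noncomm {K V : Type} [Field K] [Finite K] [AddCommGroup V] [Module K V] [Finite V]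
    [Finite (V ≃ₗ[K] V)] [Finite (SpecialLinearGroup K V)] (h2 : p ≠ 2) (hpK : ¬ p ∣ Nat.card K)
    {Q : Subgroup (SpecialLinearGroup K V)} (hQ : IsPGroup p Q)
    (hab : ∀ x ∈ Q, ∀ y ∈ Q, (cm x)^[p - 2] y = 1)
    (hne : ¬ ∀ x ∈ Q, ∀ y ∈ Q, x * y = y * x) : OneBd k Q 0 := by
  classical
  by_cases hq : p ∣ Nat.card K - 1
  · have key : OneBd k (Q.map (jS p K V)) 0 := by
      refine oneBd_pidx_of ?_ isPGroup_quot (primStmt_cyc _ isCyclic_quot isPGroup_quot)
        (hQ.map _) ?_
      · intro x y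
        obtain ⟨a, rfl⟩ := QuotientGroup.mk_surjective x
        obtain ⟨b, rfl⟩ := QuotientGroup.mk_surjective y
        rw [← QuotientGroup.mk_mul, ← QuotientGroup.mk_mul, QuotientGroup.eq]
        refine NG_of_det ?_
        rw [map_mul, map_inv, map_mul, map_mul, mul_comm (LinearEquiv.det b), inv_mul_cancel]
      · rintro S B z hS ⟨g, hg0⟩ hB hz hBz hbr
        exfalso
        have hmapj : (Q.map (jS p K V)).map (NG p K V).subtype =
            Q.map (SpecialLinearGroup.toLinearEquiv (R := K) (V := V)) := by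
          rw [Subgroup.map_map]
          rfl
        have hg : ∀ x, x ∈ S ⊓ NG p K V ↔ g⁻¹ * x * g ∈
            Q.map (SpecialLinearGroup.toLinearEquiv (R := K) (V := V)) := by
          intro x
          rw [hg0, hmapj]
          exact mem_conjS
        have hmax : MaxIn p S := maxIn_of_block hS hz hBz hbr
        have hcg : ∀ x ∈ S ⊓ NG p K V, ∀ y ∈ S ⊓ NG p K V, (cm x)^[p - 2] y = 1 := by
          intro x hx y hy
          obtain ⟨x', hx', hx1⟩ := (hg x).mp hx
          obtain ⟨y', hy', hy1⟩ := (hg y).mp hy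
          have h1 := cm_map (SpecialLinearGroup.toLinearEquiv (R := K) (V := V)) x' y' (p - 2)
          rw [hab _ hx' _ hy', map_one] at h1
          have h3 := cm_map (MulAut.conj g⁻¹).toMonoidHom x y (p - 2)
          have hx2 : (MulAut.conj g⁻¹).toMonoidHom x = SpecialLinearGroup.toLinearEquiv x' := by
            rw [hx1]
            change g⁻¹ * x * g⁻¹⁻¹ = _
            rw [inv_inv]
          have hy2 : (MulAut.conj g⁻¹).toMonoidHom y = SpecialLinearGroup.toLinearEquiv y' := by
            rw [hy1]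
            change g⁻¹ * y * g⁻¹⁻¹ = _
            rw [inv_inv]
          rw [hx2, hy2] at h3
          exact (MulAut.conj g⁻¹).injective ((h3.trans h1.symm).trans (map_one _).symm)
        have hdet : ∀ x : V ≃ₗ[K] V, LinearMap.det (x : V →ₗ[K] V) = 1 → x ∈ NG p K V := by
          intro x hx
          refine NG_of_det (Units.ext ?_)
          rw [LinearEquiv.coe_det, hx, Units.val_one]
        have hSab : ∀ x ∈ S, ∀ y ∈ S, x * y = y * x :=
          rowE h2 hpK S hS hmax fun x hx y hy hx1 hy1 => hcg x ⟨hx, hdet x hx1⟩ y ⟨hy, hdet y hy1⟩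
        apply hne
        intro x hx y hy
        have hm : ∀ w ∈ Q, g * SpecialLinearGroup.toLinearEquiv w * g⁻¹ ∈ S := by
          intro w hw
          have h1 : g * SpecialLinearGroup.toLinearEquiv w * g⁻¹ ∈ S ⊓ NG p K V := by
            rw [hg]
            refine ⟨w, hw, ?_⟩
            group
          exact h1.1
        have h1 := hSab _ (hm x hx) _ (hm y hy)
        apply SpecialLinearGroup.toLinearEquiv_injective (R := K) (V := V)
        rw [map_mul, map_mul]
        have e1 : ∀ a b : V ≃ₗ[K] V, g * a * g⁻¹ * (g * b * g⁻¹) = g * (a * b) * g⁻¹ := by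
          intro a b
          group
        rw [e1, e1] at h1
        exact mul_left_cancel (mul_right_cancel h1)
    have h1 := oneBd_sl_of_NG hQ key
    rwa [Nat.mul_zero] at h1
  · have h1 : OneBd k (Q.map (SpecialLinearGroup.toLinearEquiv (R := K) (V := V))) 0 := by
      intro e a he ha hea hbr
      exfalso
      have hmax := maxIn_of_block (hQ.map _) ha hea hbr
      apply hne
      have hSab := rowE h2 hpK _ (hQ.map _) hmax (by
        rintro _ ⟨x, hx, rfl⟩ _ ⟨y, hy, rfl⟩ - -
        have h3 := cm_map (SpecialLinearGroup.toLinearEquiv (R := K) (V := V)) x y (p - 2)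
        rw [hab _ hx _ hy, map_one] at h3
        exact h3.symm)
      intro x hx y hy
      apply SpecialLinearGroup.toLinearEquiv_injective (R := K) (V := V)
      rw [map_mul, map_mul]
      exact hSab _ ⟨x, hx, rfl⟩ _ ⟨y, hy, rfl⟩
    have h3 := H396.oneBd_sl hq hQ h1
    rwa [Nat.mul_zero] at h3

/-- the block of the covering group -/
theorem exists_cov {S : Type} [Group S] [Finite S] {G : Type} [Group G] [Finite G]
    {L R : Subgroup G} {π : S →* L} (hR : IsPGroup p R)
    (hπ : Function.Surjective π) (hk : π.ker ≤ Subgroup.center S) {e z : MonoidAlgebra k G}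
    (he : IsBlockOf L e) (hbr : br R e ≠ 0) (hz : z ∈ SubAlg k L)
    (hzF : z ∈ Fix (cj k G) (L ⊓ R)) (hez : e = tr (cj k G) (L ⊓ R) L z) :
    ∃ (Q : Subgroup S) (f a : MonoidAlgebra k S), IsPGroup p Q ∧ Q.map π = R.subgroupOf L ∧
      IsBlockOf (⊤ : Subgroup S) f ∧ a ∈ Fix (cj k S) Q ∧ f = tr (cj k S) Q ⊤ a ∧
      br Q f ≠ 0 := by
  classical
  by_contra hno
  have hfin : FiniteDimensional k (MonoidAlgebra k G) :=
    Module.Finite.equiv (MonoidAlgebra.coeffLinearEquiv k (M := G) (S := k)).symm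
  have hQ' : IsPGroup p (R.subgroupOf L) := hR.comap_subtype
  have h1 : OneBd k (R.subgroupOf L) 0 := by
    refine BN.oneBd_central hπ hk hQ' fun Q hQ hQq => ?_
    intro f a hf ha hfa hbf
    exact absurd ⟨Q, f, a, hQ, hQq, hf, ha, hfa, hbf⟩ hno
  have hsub : (L ⊓ R).subgroupOf L = R.subgroupOf L := by
    rw [inf_comm, Subgroup.inf_subgroupOf_right]
  rw [← hsub] at h1
  have hbr' : br (L ⊓ R) e ≠ 0 := by
    obtain ⟨c, hc, hec⟩ := exists_coeff_of_br hbr
    exact br_ne_zero_of_coeff (c := c) (fun h hh => hc h hh.2) hec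
  obtain ⟨j, hjL, hjF, hjj, -, hbj, hdim⟩ := BN.exists_j inf_le_left he hz hzF hez hbr' h1
  have h3 := Submodule.finrank_eq_zero.mp (Nat.le_zero.mp hdim)
  have h4 : j ∈ NN (SubAlg k L) j j := ⟨hjL, hjj, hjj⟩
  rw [h3, Submodule.mem_bot] at h4
  apply hbj
  rw [h4]
  exact Vale.Agent.P180.R2.H365.br_self (Subalgebra.zero_mem _)

end Vale.Agent.P180.H574
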