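import Vale.Agent.P180.H574.FixA
import Vale.Agent.P180.H568.OutL
import Vale.Agent.P180.R2.H471.Au13

/-!
P180 H574 (H2): a `p`-group which acts on a central quotient of a special linear group and fixes the
`p`-elements over its intersection acts through the general linear group.
-/

set_option linter.all false

namespace Vale.Agent.P180.H574

open Module Subgroup Vale.Agent.P180 Vale.Agent.P180.H768.Gd Vale.Agent.P180.R2.H799
  Vale.Agent.P180.R2.H954
open Vale.Agent.P180.R2.H471.Au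
open Vale.Agent.P180.H568.Out (cjS)

universe u

section

variable {k : Type u} [Field k] [IsAlgClosed k] {p : ℕ} [hp : Fact p.Prime] [CharP k p]

/-- a commutative defect group contains the polynomials of its elements -/
theorem pclosed_of_block {K V : Type} [Field K] [Finite K] [AddCommGroup V] [Module K V]
    [FiniteDimensional K V] [Finite (SpecialLinearGroup K V)]
    {Q : Subgroup (SpecialLinearGroup K V)} (hQ : IsPGroup p Q)
    (hQab : ∀ x ∈ Q, ∀ y ∈ Q, x * y = y * x) {f a : MonoidAlgebra k (SpecialLinearGroup K V)}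
    (hf : IsBlockOf (⊤ : Subgroup (SpecialLinearGroup K V)) f) (ha : a ∈ Fix (cj k _) Q)
    (hfa : f = tr (cj k _) Q ⊤ a) (hbr : br Q f ≠ 0) : PClosed p Q := by
  classical
  have hpel : ∀ w ∈ Q, ∃ j, w ^ p ^ j = 1 := fun w hw => by
    obtain ⟨j, hj⟩ := hQ ⟨w, hw⟩
    exact ⟨j, congrArg Subtype.val hj⟩
  let P : Subgroup (SpecialLinearGroup K V) :=
    { carrier := {w | (∃ j, w ^ p ^ j = 1) ∧ (∀ q ∈ Q, w * q = q * w) ∧
        ∀ h, (∀ q ∈ Q, h * q = q * h) → h * w = w * h}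
      one_mem' := ⟨⟨0, one_pow _⟩, fun q _ => by rw [one_mul, mul_one],
        fun h _ => by rw [one_mul, mul_one]⟩
      mul_mem' := by
        rintro a b ⟨⟨i, hi⟩, ha1, ha2⟩ ⟨⟨j, hj⟩, hb1, hb2⟩
        have hab : Commute a b := hb2 a ha1
        refine ⟨⟨i + j, ?_⟩, fun q hq => ?_, fun h hh => ?_⟩
        · rw [hab.mul_pow, pow_add, pow_mul, hi, one_pow, one_mul, mul_comm (p ^ i), pow_mul,
            hj, one_pow]
        · rw [mul_assoc, hb1 q hq, ← mul_assoc, ha1 q hq, mul_assoc]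
        · rw [← mul_assoc, ha2 h hh, mul_assoc, hb2 h hh, mul_assoc]
      inv_mem' := by
        rintro a ⟨⟨i, hi⟩, ha1, ha2⟩
        refine ⟨⟨i, by rw [inv_pow, hi, inv_one]⟩, fun q hq => ?_, fun h hh => ?_⟩
        · have h1 : Commute a q := ha1 q hq
          exact h1.inv_left
        · have h1 : Commute h a := ha2 h hh
          exact h1.inv_right }
  have hQP : Q ≤ P := fun q hq => ⟨hpel q hq, fun q' hq' => hQab q hq q' hq',
    fun h hh => hh q hq⟩
  have hPp : IsPGroup p P := by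
    rintro ⟨w, ⟨j, hj⟩, hw⟩
    exact ⟨j, Subtype.ext hj⟩
  have hle : Nat.card P ≤ Nat.card Q := by
    refine Vale.Agent.P180.R2.H12.Sl.card_le_of_normal (C := Q) hQ (SubAlg_top f) hf.mem.2 hf.idem.eq le_top hbr hPp
      ?_ ?_ le_top ha hfa
    · intro w hw
      refine Subgroup.mem_inf.mpr ⟨trivial, Subgroup.mem_centralizer_iff.mpr fun q hq => ?_⟩
      exact (hw.2.1 q hq).symm
    · rintro h ⟨-, hhC⟩ w hw
      have h1 : h * w = w * h :=
        hw.2.2 h fun q hq => (Subgroup.mem_centralizer_iff.mp hhC q hq).symm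
      rw [h1, mul_inv_cancel_right]
      exact hw
  have hPQ : P ≤ Q := (Subgroup.eq_of_le_of_card_ge hQP hle).ge
  intro u hu H w hw hwH
  have hcw : ∀ h : SpecialLinearGroup K V, h * u = u * h → h * w = w * h := by
    intro h hh
    apply en_inj
    rw [en_mul, en_mul, hwH]
    have h1 : Commute (en h) (en u) := by
      change en h * en u = en u * en h
      rw [← en_mul, ← en_mul, hh]
    exact comm_aeval h1 H
  refine hPQ ⟨hw, fun q hq => (hcw q (hQab q hq u hu)).symm, fun h hh => hcw h (hh u hu)⟩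

/-- the statement (H1) -/
def SigNc (p : ℕ) (K : Type) [Field K] (V : Type) [AddCommGroup V] [Module K V]
    [FiniteDimensional K V] : Prop :=
  p ∣ Nat.card K - 1 → ∀ Q : Subgroup (SpecialLinearGroup K V), IsPGroup p Q →
    (∃ u ∈ Q, ¬ ∃ c : K, ∀ v, u v = c • v) → PClosed p Q → ∀ (σ : RingAut K) (g : V ≃+ V),
      (∀ (c : K) v, g (c • v) = σ c • g v) → (∀ w ∈ Q, ∀ v, g (w v) = w (g v)) →
        ∀ s : ℕ, σ ^ p ^ s = 1 → σ = 1

/-- **(H2)** -/
theorem thru_gl_of {K : Type} [Field K] [Finite K] {d : ℕ} (hH1 : SigNc p K (Fin d → K))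
    {G : Type} [Group G] [Finite G] {L R : Subgroup G}
    {π : SpecialLinearGroup K (Fin d → K) →* L} (hR : IsPGroup p R) (h2 : p ≠ 2)
    (hn : ∀ x ∈ R, ∀ s ∈ L, x * s * x⁻¹ ∈ L) (hd : 3 ≤ d) (hpK : ¬ p ∣ Nat.card K)
    (hπ : Function.Surjective π) (hk : π.ker ≤ Subgroup.center _)
    (heng : ∀ x y : SpecialLinearGroup K (Fin d → K), ((π x : L) : G) ∈ R →
      ((π y : L) : G) ∈ R → (fun t => x * t * x⁻¹ * t⁻¹)^[p - 2] y = 1)
    (hβ : ∀ r ∈ R, ∃ β : MulAut (SpecialLinearGroup K (Fin d → K)),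
      (∀ s, ((π (β s) : L) : G) = r * (π s : L) * r⁻¹) ∧
        ∀ s, (∃ j, s ^ p ^ j = 1) → ((π s : L) : G) ∈ R → β s = s)
    (hnc : ∃ x ∈ R, x ∈ L ∧ ¬ ∀ l ∈ L, x * l = l * x)
    {e z : MonoidAlgebra k G} (he : IsBlockOf L e) (hbr : br R e ≠ 0) (hz : z ∈ SubAlg k L)
    (hzF : z ∈ Fix (cj k G) (L ⊓ R)) (hez : e = tr (cj k G) (L ⊓ R) L z) :
    ∀ r ∈ R, ∃ g : (Fin d → K) ≃ₗ[K] (Fin d → K), ∀ x,
      ((π (cjS g x) : L) : G) = r * (π x : L) * r⁻¹ := by
  classical
  haveI : Finite (SpecialLinearGroup K (Fin d → K)) := BN.finite_sl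
  haveI : Finite ((Fin d → K) ≃ₗ[K] (Fin d → K)) :=
    Finite.of_injective (fun g : (Fin d → K) ≃ₗ[K] (Fin d → K) => (g : (Fin d → K) → (Fin d → K)))
      DFunLike.coe_injective
  obtain ⟨Q, f, a, hQ, hQR, hf, ha, hfa, hbf⟩ := exists_cov (k := k) hR hπ hk he hbr hz hzF hez
  have hmemR : ∀ w ∈ Q, ((π w : L) : G) ∈ R := fun w hw => by
    have h1 : π w ∈ R.subgroupOf L := hQR ▸ ⟨w, hw, rfl⟩
    exact h1
  have hQab : ∀ x ∈ Q, ∀ y ∈ Q, x * y = y * x := by
    by_contra hne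
    exact not_oneBd_zero hf ha hfa hbf (zero_of_noncomm (k := k) h2 hpK hQ
      (fun x hx y hy => heng x y (hmemR x hx) (hmemR y hy)) hne)
  have hQC : PClosed p Q := pclosed_of_block hQ hQab hf ha hfa hbf
  have hpel : ∀ w ∈ Q, ∃ j, w ^ p ^ j = 1 := fun w hw => by
    obtain ⟨j, hj⟩ := hQ ⟨w, hw⟩
    exact ⟨j, congrArg Subtype.val hj⟩
  -- a nonscalar element
  have hns : ∃ u ∈ Q, ¬ ∃ c : K, ∀ v, u v = c • v := by
    obtain ⟨x, hxR, hxL, hx⟩ := hnc
    have h1 : (⟨x, hxL⟩ : L) ∈ Q.map π := by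
      rw [hQR]
      exact hxR
    obtain ⟨u, hu, hux⟩ := h1
    refine ⟨u, hu, ?_⟩
    rintro ⟨c, hc⟩
    apply hx
    intro l hl
    obtain ⟨y, hy⟩ := hπ ⟨l, hl⟩
    have h2 : u * y = y * u := by
      apply Subtype.ext
      apply LinearEquiv.ext
      intro v
      change u (y v) = y (u v)
      rw [hc, hc]
      exact (y.1.map_smul c v).symm
    have h3 := congrArg (fun t : SpecialLinearGroup K (Fin d → K) => ((π t : L) : G)) h2
    simp only [map_mul, hux, hy] at h3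
    exact h3
  have hQ1 : Q ≠ ⊥ := by
    rintro rfl
    obtain ⟨u, hu, hnu⟩ := hns
    rw [Subgroup.mem_bot] at hu
    subst hu
    exact hnu ⟨1, fun v => by rw [one_smul]; rfl⟩
  intro r hr
  obtain ⟨s, hs⟩ := hR ⟨r, hr⟩
  have hs : r ^ p ^ s = 1 := congrArg Subtype.val hs
  obtain ⟨σ, g, hA⟩ := exists_acts hd hπ hk (mem_normalizer_of hn hr) (odd_pow h2 s) hs
  have hσ := hA.pow_eq_one (by omega) hk hs
  let g' : (Fin d → K) ≃+ (Fin d → K) := AddEquiv.mk' g hA.1
  obtain ⟨β, hβ1, hβ2⟩ := hβ r hr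
  -- conjugation by `g`
  choose y hy using hA.2.2.1
  have huniq : ∀ x z : SpecialLinearGroup K (Fin d → K), (∀ v, g (x v) = z (g v)) → y x = z := by
    intro x z hz
    apply Subtype.ext
    apply LinearEquiv.ext
    intro v
    obtain ⟨v, rfl⟩ := g.surjective v
    change y x (g v) = z (g v)
    rw [← hy, hz]
  let F : SpecialLinearGroup K (Fin d → K) →* SpecialLinearGroup K (Fin d → K) :=
    { toFun := y
      map_one' := huniq _ _ fun v => rfl
      map_mul' := fun x z => huniq _ _ fun v => by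
        change g (x (z v)) = y x (y z (g v))
        rw [hy, hy] }
  have hF : ∀ x, F x = β x := by
    refine hom_eq (f₁ := F) (f₂ := β.toMonoidHom) (perfect_sl hd) ?_
    intro x
    apply hk
    rw [MonoidHom.mem_ker, map_mul, map_inv, inv_mul_eq_one]
    apply Subtype.ext
    have h1 := hA.2.2.2 x (y x) (hy x)
    have h3 := hβ1 x
    exact h1.symm.trans h3.symm
  have hgQ : ∀ w ∈ Q, ∀ v, g' (w v) = w (g' v) := by
    intro w hw v
    have h1 : y w = w := (hF w).trans (hβ2 w (hpel w hw) (hmemR w hw))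
    have h3 := hy w v
    rw [h1] at h3
    exact h3
  have hσ1 : σ = 1 := by
    by_cases hp1 : p ∣ Nat.card K - 1
    · exact hH1 hp1 Q hQ hns hQC σ g' hA.2.1 hgQ s hσ
    · exact sigma_eq_one (cast_ne hpK) (fun h => hp1 h.2) hQ hQ1 hQC (g := g') hA.2.1 hgQ hσ
  subst hσ1
  let g'' : (Fin d → K) ≃ₗ[K] (Fin d → K) :=
    { g' with
      map_smul' := fun c v => hA.2.1 c v }
  refine ⟨g'', fun x => ?_⟩
  have h1 := hA.2.2.2 x (cjS g'' x) (fun v => by
    change g (x v) = (g'' * x.1 * g''⁻¹) (g v)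
    have h3 : g''⁻¹ (g v) = v := g''.symm_apply_apply v
    change g (x v) = g'' (x.1 (g''⁻¹ (g v)))
    rw [h3]
    rfl)
  exact h1.symm

end

end Vale.Agent.P180.H574
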