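import Mathlib

/-!
P180 H574: a nonabelian `p`-group of monomial matrices.
-/

set_option linter.all false

namespace Vale.Agent.P180.H574

section

variable {F : Type*} [Field F] {n : Type*} [Fintype n] [DecidableEq n]

/-- diagonal matrices -/
def dg : (n → Fˣ) →* (Matrix n n F)ˣ where
  toFun f := ⟨Matrix.diagonal fun i => (f i : F), Matrix.diagonal fun i => (((f i)⁻¹ : Fˣ) : F),
    by
      rw [Matrix.diagonal_mul_diagonal]
      simp,
    by
      rw [Matrix.diagonal_mul_diagonal]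
      simp⟩
  map_one' := by
    apply Units.ext
    change (Matrix.diagonal fun i => ((1 : n → Fˣ) i : F)) = 1
    simp
  map_mul' f g := by
    apply Units.ext
    change (Matrix.diagonal fun i => ((f * g) i : F)) =
      Matrix.diagonal (fun i => (f i : F)) * Matrix.diagonal fun i => (g i : F)
    rw [Matrix.diagonal_mul_diagonal]
    rfl

theorem dg_coe (f : n → Fˣ) : ((dg f : (Matrix n n F)ˣ) : Matrix n n F) =
    Matrix.diagonal fun i => (f i : F) := rfl

theorem dg_injective : Function.Injective (dg : (n → Fˣ) →* (Matrix n n F)ˣ) := by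
  intro f g h
  funext i
  have h1 := congrArg (fun x : (Matrix n n F)ˣ => (x : Matrix n n F) i i) h
  simp only [dg_coe, Matrix.diagonal_apply_eq] at h1
  exact Units.ext h1

variable (F) in
/-- permutation matrices -/
def pmH : Equiv.Perm n →* Matrix n n F where
  toFun σ := Matrix.of fun i j => if i = σ j then 1 else 0
  map_one' := by
    ext i j
    by_cases h : i = j
    · subst h
      simp
    · rw [Matrix.one_apply_ne h]
      exact if_neg h
  map_mul' σ τ := by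
    ext i j
    rw [Matrix.mul_apply]
    change (if i = (σ * τ) j then (1 : F) else 0) =
      ∑ k, (if i = σ k then (1 : F) else 0) * (if k = τ j then (1 : F) else 0)
    rw [Finset.sum_eq_single (τ j)]
    · by_cases h : i = (σ * τ) j
      · rw [if_pos h, if_pos rfl, mul_one]
        exact (if_pos h).symm
      · rw [if_neg h, if_pos rfl, mul_one]
        exact (if_neg h).symm
    · intro k _ hk
      rw [if_neg hk, mul_zero]
    · intro h
      exact absurd (Finset.mem_univ _) h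

variable (F) in
/-- permutation matrices -/
def pm : Equiv.Perm n →* (Matrix n n F)ˣ := (pmH F).toHomUnits

theorem pm_coe (σ : Equiv.Perm n) : ((pm F σ : (Matrix n n F)ˣ) : Matrix n n F) =
    Matrix.of fun i j => if i = σ j then 1 else 0 := rfl

theorem pm_dg (σ : Equiv.Perm n) (f : n → Fˣ) :
    pm F σ * dg f = dg (fun i => f (σ⁻¹ i)) * pm F σ := by
  apply Units.ext
  rw [Units.val_mul, Units.val_mul, dg_coe, dg_coe, pm_coe]
  ext i j
  rw [Matrix.mul_diagonal, Matrix.diagonal_mul, Matrix.of_apply]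
  by_cases h : i = σ j
  · rw [if_pos h, h]
    simp
  · rw [if_neg h]
    simp

theorem pm_dg_inv (σ : Equiv.Perm n) (f : n → Fˣ) :
    pm F σ * dg f * (pm F σ)⁻¹ = dg (fun i => f (σ⁻¹ i)) := by
  rw [pm_dg, mul_inv_cancel_right]

/-- **A nonabelian `p`-group of monomial matrices of determinant one.** -/
theorem exists_monoPair {p : ℕ} (hp : p.Prime) (h2 : p ≠ 2) (hn : p ≤ Fintype.card n) {ζ : Fˣ}
    (hζ : ζ ^ p = 1) (hζ1 : ζ ≠ 1) :
    ∃ (P : Subgroup (Matrix n n F)ˣ) (C D : (Matrix n n F)ˣ), IsPGroup p P ∧ C ∈ P ∧ D ∈ P ∧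
      C * D ≠ D * C ∧ C ^ p = 1 ∧ (∃ w, w * C * w⁻¹ = C⁻¹) ∧ ∃ a b, D = a * b * a⁻¹ * b⁻¹ := by
  haveI : Fact p.Prime := ⟨hp⟩
  have hdvd : p ∣ Fintype.card (Equiv.Perm n) := by
    rw [Fintype.card_perm]
    exact Nat.dvd_factorial hp.pos hn
  obtain ⟨σ, hσ⟩ := exists_prime_orderOf_dvd_card p hdvd
  have hσp : σ ^ p = 1 := by rw [← hσ]; exact pow_orderOf_eq_one σ
  have hσ1 : σ ≠ 1 := by
    rintro rfl
    rw [orderOf_one] at hσ
    exact hp.one_lt.ne hσ
  obtain ⟨a, ha⟩ : ∃ a, σ a ≠ a := by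
    by_contra h
    push Not at h
    exact hσ1 (Equiv.ext h)
  have hCp : (pm F σ) ^ p = 1 := by rw [← map_pow, hσp, map_one]
  have hD : dg (Pi.mulSingle a ζ) * pm F (Equiv.swap a (σ a)) * (dg (Pi.mulSingle a ζ))⁻¹ *
      (pm F (Equiv.swap a (σ a)))⁻¹ =
      dg (Pi.mulSingle a ζ * (Pi.mulSingle (σ a) ζ)⁻¹ : n → Fˣ) := by
    rw [mul_assoc (dg _), mul_assoc (dg _), ← map_inv, pm_dg_inv, ← map_mul]
    congr 1
    funext i
    simp only [Pi.mul_apply, Pi.inv_apply]
    congr 2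
    have h3 : (Equiv.swap a (σ a))⁻¹ = Equiv.swap a (σ a) := Equiv.swap_inv _ _
    rw [h3]
    by_cases h1 : i = σ a
    · subst h1
      rw [Equiv.swap_apply_right, Pi.mulSingle_eq_same, Pi.mulSingle_eq_same]
    · rw [Pi.mulSingle_eq_of_ne h1]
      by_cases h2 : i = a
      · subst h2
        rw [Equiv.swap_apply_left, Pi.mulSingle_eq_of_ne ha]
      · rw [Equiv.swap_apply_of_ne_of_ne h2 h1, Pi.mulSingle_eq_of_ne h2]
  let K0 : Subgroup (Matrix n n F)ˣ := Subgroup.map dg (powMonoidHom p : (n → Fˣ) →* (n → Fˣ)).ker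
  have hK0 : ∀ f : n → Fˣ, f ^ p = 1 → dg f ∈ K0 := fun f hf => ⟨f, hf, rfl⟩
  have hK0' : ∀ x ∈ K0, ∃ f : n → Fˣ, f ^ p = 1 ∧ dg f = x := by
    rintro x ⟨f, hf, rfl⟩
    exact ⟨f, hf, rfl⟩
  have hpk : IsPGroup p K0 := by
    rintro ⟨x, hx⟩
    obtain ⟨f, hf, rfl⟩ := hK0' x hx
    refine ⟨1, Subtype.ext ?_⟩
    change (dg f) ^ p ^ 1 = 1
    rw [pow_one, ← map_pow, hf, map_one]
  have hpc : IsPGroup p (Subgroup.zpowers (pm F σ)) := by
    rintro ⟨x, k, rfl⟩
    refine ⟨1, Subtype.ext ?_⟩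
    change ((pm F σ) ^ k) ^ p ^ 1 = 1
    rw [pow_one, ← zpow_natCast, ← zpow_mul, mul_comm, zpow_mul, zpow_natCast, hCp, one_zpow]
  have hfp : ∀ (f : n → Fˣ) (τ : Equiv.Perm n), f ^ p = 1 → (fun i => f (τ i)) ^ p = 1 := by
    intro f τ hf
    funext i
    exact congrFun hf (τ i)
  have hnorm : Subgroup.zpowers (pm F σ) ≤ Subgroup.normalizer (K0 : Set (Matrix n n F)ˣ) := by
    rw [Subgroup.zpowers_le, Subgroup.mem_normalizer_iff]
    intro x
    constructor
    · intro hx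
      obtain ⟨f, hf, rfl⟩ := hK0' x hx
      rw [pm_dg_inv]
      exact hK0 _ (hfp f _ hf)
    · intro hx
      obtain ⟨f, hf, h1⟩ := hK0' _ hx
      have h4 : x = dg (fun i => f (σ i)) := by
        have h5 := pm_dg_inv σ (fun i => f (σ i))
        have h6 : (fun i => f (σ (σ⁻¹ i))) = f := by
          funext i
          simp
        rw [h6, h1] at h5
        have h7 := mul_right_cancel h5
        exact (mul_left_cancel h7).symm
      rw [h4]
      exact hK0 _ (hfp f _ hf)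
  have hDp : (Pi.mulSingle a ζ * (Pi.mulSingle (σ a) ζ)⁻¹ : n → Fˣ) ^ p = 1 := by
    have h3 : ∀ j : n, (Pi.mulSingle j ζ : n → Fˣ) ^ p = 1 := by
      intro j
      rw [← Pi.mulSingle_pow, hζ, Pi.mulSingle_one]
    rw [mul_pow, inv_pow, h3, h3, inv_one, one_mul]
  refine ⟨Subgroup.zpowers (pm F σ) ⊔ K0, pm F σ,
    dg (Pi.mulSingle a ζ * (Pi.mulSingle (σ a) ζ)⁻¹ : n → Fˣ),
    IsPGroup.to_sup_of_normal_right' hpc hpk hnorm,
    Subgroup.mem_sup_left (Subgroup.mem_zpowers _), Subgroup.mem_sup_right (hK0 _ hDp),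
    ?_, hCp, ?_, ⟨_, _, hD.symm⟩⟩
  · intro h
    rw [pm_dg] at h
    have h1 := dg_injective (mul_right_cancel h)
    have h3 := congrFun h1 (σ a)
    have h30 : σ⁻¹ (σ a) = a := σ.symm_apply_apply a
    simp only [Pi.mul_apply, Pi.inv_apply, h30, Pi.mulSingle_eq_same] at h3
    rw [Pi.mulSingle_eq_of_ne (Ne.symm ha), Pi.mulSingle_eq_of_ne ha, inv_one, mul_one,
      one_mul] at h3
    have h4 : ζ ^ 2 = 1 := by
      rw [pow_two]
      nth_rewrite 1 [h3]
      exact inv_mul_cancel ζ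
    have h5 : Nat.Coprime 2 p := by
      rw [Nat.coprime_primes Nat.prime_two hp]
      exact h2.symm
    have h6 : orderOf ζ ∣ Nat.gcd 2 p :=
      Nat.dvd_gcd (orderOf_dvd_of_pow_eq_one h4) (orderOf_dvd_of_pow_eq_one hζ)
    rw [h5] at h6
    exact hζ1 (orderOf_eq_one_iff.mp (Nat.dvd_one.mp h6))
  · have h3 : IsConj σ σ⁻¹ := by
      rw [Equiv.Perm.isConj_iff_cycleType_eq, Equiv.Perm.cycleType_inv]
    obtain ⟨τ, hτ⟩ := isConj_iff.mp h3
    refine ⟨pm F τ, ?_⟩
    rw [← map_inv, ← map_mul, ← map_mul, hτ, map_inv]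

end

end Vale.Agent.P180.H574
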