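import Vale.Agent.P180.H574.LemD
import Vale.Agent.P180.H951.SlAll

/-!
P180 H574: Lemma D in the form of the row (A).
-/

set_option linter.all false

namespace Vale.Agent.P180.H574

open Module Vale.Agent.P180.H951

/-- **Row (A).** -/
theorem rowA {p : ℕ} [Fact p.Prime] (h2 : p ≠ 2) {K V : Type} [Field K] [Finite K]
    [AddCommGroup V] [Module K V] [Finite V] (hpK : ¬ p ∣ Nat.card K) (S : Subgroup (V ≃ₗ[K] V))
    (hS : IsPGroup p S) (hmax : MaxIn p S)
    (hT : ∀ x ∈ S, ∀ y ∈ S, LinearMap.det (x : V →ₗ[K] V) = 1 →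
      LinearMap.det (y : V →ₗ[K] V) = 1 → x * y = y * x) : ∀ x ∈ S, ∀ y ∈ S, x * y = y * x := by
  haveI : FiniteDimensional K V := Module.Finite.of_finite
  refine lemD h2 hpK S hS (fun P hP hSP h => hmax P hSP hP h)
    (LinearEquiv.det : (V ≃ₗ[K] V) →* Kˣ) ?_
  intro x hx y hy e1 e2
  refine hT x hx y hy ?_ ?_
  · have h3 := congrArg Units.val e1
    rwa [LinearEquiv.coe_det, Units.val_one] at h3
  · have h3 := congrArg Units.val e2
    rwa [LinearEquiv.coe_det, Units.val_one] at h3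

end Vale.Agent.P180.H574
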