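import Vale.Agent.P180.H951.Pd
import Vale.Agent.P180.H392.Res

/-!
P180 H574: one step of the decomposition of a space with a form under a commutative group of
isometries: the last pair of a `PD` is a hyperbolic pair, the other pairs are a `PD` of the
complement.
-/

set_option linter.all false

namespace Vale.Agent.P180.H574

open Module Vale.Agent.P180.R2.H854 Vale.Agent.P180.H393.Fm Vale.Agent.P180.H951
  Vale.Agent.P180.H392.Res

section

variable {K E V : Type} [Field K] [AddCommGroup E] [Module K E] [AddCommGroup V] [Module K V]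

/-- `Q'` is the image of `Q` on the subspace `i(V)`. -/
structure Img (i : V →ₗ[K] E) (Q : Subgroup (E ≃ₗ[K] E)) (Q' : Subgroup (V ≃ₗ[K] V)) : Prop where
  fwd : ∀ q ∈ Q, ∃ q' ∈ Q', ∀ v, q (i v) = i (q' v)
  bwd : ∀ q' ∈ Q', ∃ q ∈ Q, ∀ v, q (i v) = i (q' v)

theorem Img.span {i : V →ₗ[K] E} {Q : Subgroup (E ≃ₗ[K] E)} {Q' : Subgroup (V ≃ₗ[K] V)}
    (h : Img i Q Q') {x' : End K V}
    (hx : x' ∈ Submodule.span K (Set.range fun q : Q' => tE (q : V ≃ₗ[K] V))) :
    ∃ x ∈ Submodule.span K (Set.range fun q : Q => tE (q : E ≃ₗ[K] E)), ∀ v, x (i v) = i (x' v) := by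
  induction hx using Submodule.span_induction with
  | mem x hx =>
    obtain ⟨q', rfl⟩ := hx
    obtain ⟨q, hq, h1⟩ := h.bwd q' q'.2
    exact ⟨tE q, Submodule.subset_span ⟨⟨q, hq⟩, rfl⟩, h1⟩
  | zero => exact ⟨0, Submodule.zero_mem _, fun v => by
      rw [LinearMap.zero_apply, LinearMap.zero_apply, map_zero]⟩
  | add x y _ _ hx hy =>
    obtain ⟨a, ha, ha'⟩ := hx
    obtain ⟨b, hb, hb'⟩ := hy
    exact ⟨a + b, Submodule.add_mem _ ha hb, fun v => by
      rw [LinearMap.add_apply, LinearMap.add_apply, ha', hb', map_add]⟩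
  | smul c x _ hx =>
    obtain ⟨a, ha, ha'⟩ := hx
    exact ⟨c • a, Submodule.smul_mem _ _ ha, fun v => by
      rw [LinearMap.smul_apply, LinearMap.smul_apply, ha', map_smul]⟩

theorem B_sum (Φ : HForm K E) {κ : Type} (s : Finset κ) (v : E) (f : κ → E) :
    Φ.B v (∑ i ∈ s, f i) = ∑ i ∈ s, Φ.B v (f i) := by
  classical
  induction s using Finset.induction_on with
  | empty => simp [Φ.zero_right]
  | insert i s hi ih => rw [Finset.sum_insert hi, Finset.sum_insert hi, Φ.add_right, ih]

end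

section

variable {K E : Type} [Field K] [Finite K] [AddCommGroup E] [Module K E] [FiniteDimensional K E]
  {Φ : HForm K E} {ι : Type} [Fintype ι] [DecidableEq ι]

/-- The pair `P` belongs to the projection `e`. -/
structure Fits (P : Hyp Φ ι) (e : End K E) : Prop where
  ex : ∀ v, e v = P.x (P.px v)
  ey : ∀ v, Φ.adj e v = P.y (P.py v)

omit [DecidableEq ι] in
/-- **The hyperbolic pair of a projection.** -/
theorem exists_fits (e : End K E) (he : e * e = e) (h1 : Φ.adj e * e = 0) (h2 : e * Φ.adj e = 0) :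
    ∃ P : Hyp Φ (Fin (finrank K (LinearMap.range e))), Fits P e := by
  classical
  let b := Module.finBasis K (LinearMap.range e)
  have hu : ∀ i, ∃ u, ∀ v, b.coord i (e.rangeRestrict v) = Φ.B v u := fun i =>
    Φ.exists_riesz ((b.coord i) ∘ₗ e.rangeRestrict)
  choose u hu using hu
  let x : (Fin (finrank K (LinearMap.range e)) → K) →ₗ[K] E :=
    (LinearMap.range e).subtype ∘ₗ (b.equivFun.symm : _ →ₗ[K] _)
  let y : (Fin (finrank K (LinearMap.range e)) → K) →ₗ[K] E :=
    Φ.adj e ∘ₗ
      { toFun := fun c => ∑ i, c i • u i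
        map_add' := fun c d => by
          simp only [Pi.add_apply, add_smul, Finset.sum_add_distrib]
        map_smul' := fun t c => by
          simp only [Pi.smul_apply, smul_eq_mul, RingHom.id_apply, Finset.smul_sum, mul_smul] }
  have hy : ∀ c, y c = Φ.adj e (∑ i, c i • u i) := fun c => rfl
  have hxe : ∀ a, e (x a) = x a := by
    intro a
    obtain ⟨w, hw⟩ := (b.equivFun.symm a).2
    change e (b.equivFun.symm a : E) = (b.equivFun.symm a : E)
    rw [← hw]
    exact congrArg (fun a : End K E => a w) he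
  have hxr : ∀ a, e.rangeRestrict (x a) = b.equivFun.symm a := fun a => Subtype.ext (hxe a)
  have hxu : ∀ a i, Φ.B (x a) (u i) = a i := by
    intro a i
    rw [← hu, hxr, Basis.coord_apply]
    have := congrFun (b.equivFun.apply_symm_apply a) i
    rwa [Basis.equivFun_apply] at this
  let P : Hyp Φ (Fin (finrank K (LinearMap.range e))) :=
    { x := x
      y := y
      xx := fun a c => by
        rw [← hxe a, ← hxe c, Φ.adj_right]
        have := congrArg (fun f : End K E => f (x c)) h1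
        change Φ.adj e (e (x c)) = 0 at this
        rw [this, Φ.zero_right]
      yy := fun a c => by
        rw [hy, hy, Φ.adj_left]
        have := congrArg (fun f : End K E => f (∑ i, c i • u i)) h2
        change e (Φ.adj e (∑ i, c i • u i)) = 0 at this
        rw [this, Φ.zero_right]
      xy := fun a c => by
        rw [hy, ← Φ.adj_right, hxe, B_sum]
        unfold hh
        refine Finset.sum_congr rfl fun i _ => ?_
        rw [Φ.smul_right, hxu, mul_comm] }
  have hPx : ∀ a, P.x a = x a := fun _ => rfl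
  have hPy : ∀ c, P.y c = Φ.adj e (∑ i, c i • u i) := fun _ => rfl
  have ex : ∀ v, e v = P.x (P.px v) := by
    intro v
    have h3 : P.px v = b.equivFun (e.rangeRestrict v) := by
      funext i
      rw [P.px_apply, hPy, ← Φ.adj_right]
      have h4 : ∑ j, (Pi.single i (1 : K) : Fin (finrank K (LinearMap.range e)) → K) j • u j
          = u i := by
        rw [Finset.sum_eq_single i]
        · rw [Pi.single_eq_same, one_smul]
        · intro j _ hj
          rw [Pi.single_eq_of_ne hj, zero_smul]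
        · intro h
          exact absurd (Finset.mem_univ i) h
      rw [h4, ← hu, Basis.equivFun_apply, Basis.coord_apply]
      have h5 : e.rangeRestrict (e v) = e.rangeRestrict v :=
        Subtype.ext (congrArg (fun a : End K E => a v) he)
      rw [h5]
    rw [h3, hPx]
    change e v = ((b.equivFun.symm (b.equivFun (e.rangeRestrict v)) : LinearMap.range e) : E)
    rw [LinearEquiv.symm_apply_apply]
    rfl
  refine ⟨P, ex, fun v => ?_⟩
  have hae : Φ.adj e * Φ.adj e = Φ.adj e := by rw [← Φ.adj_mul, he]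
  have hz : Φ.adj e (Φ.adj e v - P.y (P.py v)) = Φ.adj e v - P.y (P.py v) := by
    rw [map_sub, hPy]
    have h3 : ∀ w, Φ.adj e (Φ.adj e w) = Φ.adj e w := fun w =>
      congrArg (fun a : End K E => a w) hae
    rw [h3, h3]
  apply sub_eq_zero.mp
  apply Φ.eq_zero_of_right
  intro t
  rw [← hz, ← Φ.adj_right, ex, Φ.sub_right, ← Φ.adj_right, ex, P.px_x, P.B_x', P.B_x', P.py_y,
    sub_self]

variable {P : Hyp Φ ι} {e : End K E}

namespace Fits

theorem e_x (h : Fits P e) (a : ι → K) : e (P.x a) = P.x a := by rw [h.ex, P.px_x]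

theorem e_y (h : Fits P e) (a : ι → K) : e (P.y a) = 0 := by rw [h.ex, P.px_y, map_zero]

theorem a_y (h : Fits P e) (a : ι → K) : Φ.adj e (P.y a) = P.y a := by rw [h.ey, P.py_y]

theorem a_x (h : Fits P e) (a : ι → K) : Φ.adj e (P.x a) = 0 := by rw [h.ey, P.py_x, map_zero]

theorem px_eq (h : Fits P e) {v : E} : P.px v = 0 ↔ e v = 0 := by
  rw [h.ex]
  constructor
  · intro h1
    rw [h1, map_zero]
  · intro h1
    apply P.x_injective
    rw [h1, map_zero]

theorem py_eq (h : Fits P e) {v : E} : P.py v = 0 ↔ Φ.adj e v = 0 := by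
  rw [h.ey]
  constructor
  · intro h1
    rw [h1, map_zero]
  · intro h1
    apply P.y_injective
    rw [h1, map_zero]

theorem mem_W' (h : Fits P e) {v : E} : v ∈ W P ↔ e v = 0 ∧ Φ.adj e v = 0 := by
  rw [mem_W, h.px_eq, h.py_eq]

theorem range_x (h : Fits P e) : LinearMap.range P.x = LinearMap.range e := by
  ext v
  constructor
  · rintro ⟨a, rfl⟩
    exact ⟨P.x a, h.e_x a⟩
  · rintro ⟨w, rfl⟩
    exact ⟨P.px w, (h.ex w).symm⟩

theorem range_y (h : Fits P e) : LinearMap.range P.y = LinearMap.range (Φ.adj e) := by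
  ext v
  constructor
  · rintro ⟨a, rfl⟩
    exact ⟨P.y a, h.a_y a⟩
  · rintro ⟨w, rfl⟩
    exact ⟨P.py w, (h.ey w).symm⟩

theorem pw_eq (h : Fits P e) (v : E) : P.pw v = v - e v - Φ.adj e v := by
  rw [h.ex, h.ey]
  rfl

end Fits

theorem adj_iso {g : E ≃ₗ[K] E} (hg : g ∈ IsoG Φ) : Φ.adj (tE g) = tE g⁻¹ := by
  symm
  apply Φ.eq_adj
  intro x y
  have h1 : g (g⁻¹ y) = y := LinearEquiv.apply_symm_apply g y
  have h2 := hg x (g⁻¹ y)
  rw [h1] at h2
  exact h2

/-- An isometry which commutes with `e` commutes with the adjoint. -/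
theorem adj_comm {g : E ≃ₗ[K] E} (hg : g ∈ IsoG Φ) (h : tE g * e = e * tE g) :
    tE g * Φ.adj e = Φ.adj e * tE g := by
  have h1 := congrArg Φ.adj h
  rw [Φ.adj_mul, Φ.adj_mul, adj_iso hg] at h1
  calc tE g * Φ.adj e = tE g * (Φ.adj e * tE g⁻¹) * tE g := by
        rw [mul_assoc, mul_assoc, tE_inv_mul, mul_one]
    _ = tE g * (tE g⁻¹ * Φ.adj e) * tE g := by rw [h1]
    _ = Φ.adj e * tE g := by rw [← mul_assoc, tE_mul_inv, one_mul]

theorem Fits.comm_x (h : Fits P e) {g : E ≃ₗ[K] E} (hg : tE g * e = e * tE g) (a : ι → K) :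
    g (P.x a) = P.x (P.px (g (P.x a))) := by
  have h2 : g (e (P.x a)) = e (g (P.x a)) := congrArg (fun f : End K E => f (P.x a)) hg
  rw [h.e_x, h.ex] at h2
  exact h2

theorem Fits.comm_y (h : Fits P e) {g : E ≃ₗ[K] E} (hi : g ∈ IsoG Φ) (hg : tE g * e = e * tE g)
    (a : ι → K) : g (P.y a) = P.y (P.py (g (P.y a))) := by
  have h2 : g (Φ.adj e (P.y a)) = Φ.adj e (g (P.y a)) :=
    congrArg (fun f : End K E => f (P.y a)) (adj_comm hi hg)
  rw [h.a_y, h.ey] at h2
  exact h2

theorem Fits.comm_pw (h : Fits P e) {g : E ≃ₗ[K] E} (hi : g ∈ IsoG Φ) (hg : tE g * e = e * tE g)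
    (v : E) : P.pw (g v) = g (P.pw v) := by
  have h1 : g (e v) = e (g v) := congrArg (fun f : End K E => f v) hg
  have h2 : g (Φ.adj e v) = Φ.adj e (g v) := congrArg (fun f : End K E => f v) (adj_comm hi hg)
  rw [h.pw_eq, h.pw_eq, map_sub, map_sub, h1, h2]

variable {Q : Subgroup (E ≃ₗ[K] E)} {r : ℕ}

/-- **The last pair of a decomposition.** -/
theorem exists_last (D : PD Φ Q (r + 1)) :
    ∃ P : Hyp Φ (Fin (finrank K (LinearMap.range (D.e (Fin.last r))))), Fits P (D.e (Fin.last r)) :=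
  exists_fits _ (D.idem _) (D.iso _ _) (D.iso' _ _)

theorem comm_e (D : PD Φ Q r) (i : Fin r) {g : E ≃ₗ[K] E} (hg : ∀ q ∈ Q, g * q = q * g) :
    tE g * D.e i = D.e i * tE g :=
  D.comm (tE g) (fun q hq => by rw [← map_mul, ← map_mul, hg q hq]) i

/-- An isometry which commutes with `Q` preserves the two subspaces of the pair. -/
theorem comm_mem (D : PD Φ Q r) {i : Fin r} (h : Fits P (D.e i)) {g : E ≃ₗ[K] E}
    (hi : g ∈ IsoG Φ) (hg : ∀ q ∈ Q, g * q = q * g) :
    (∀ a, ∃ b, g (P.x a) = P.x b) ∧ ∀ a, ∃ b, g (P.y a) = P.y b :=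
  ⟨fun a => ⟨_, h.comm_x (comm_e D i hg) a⟩, fun a => ⟨_, h.comm_y hi (comm_e D i hg) a⟩⟩

theorem comm_mem_of_mem (D : PD Φ Q r) {i : Fin r} (h : Fits P (D.e i)) (hQ : Q ≤ IsoG Φ)
    (hab : ∀ x ∈ Q, ∀ y ∈ Q, x * y = y * x) {g : E ≃ₗ[K] E} (hg : g ∈ Q) :
    (∀ a, ∃ b, g (P.x a) = P.x b) ∧ ∀ a, ∃ b, g (P.y a) = P.y b :=
  comm_mem D h (hQ hg) fun q hq => hab g hg q hq

/-- **The centralizer of `Q` in the radical is trivial.** -/
theorem eq_one_of_comm (D : PD Φ Q r) {i : Fin r} (h : Fits P (D.e i)) {u : E ≃ₗ[K] E}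
    (hu : u ∈ P.UU) (hg : ∀ q ∈ Q, u * q = q * u) : u = 1 := by
  obtain ⟨h1, h2, h3⟩ := hu
  have h4 : u ∈ P.Fx := by
    refine ⟨h1, h2, fun a => ?_⟩
    rw [h.comm_y h1 (comm_e D i hg) a]
    congr 1
    rw [P.py_of_fix h1 h2, P.py_y]
  have h5 : u ∈ P.Fx ⊓ P.UU := ⟨h4, h1, h2, h3⟩
  rw [P.inf_Fx_UU] at h5
  exact Subgroup.mem_bot.mp h5

/-- **The image of `Q` in the general linear group of a pair is homogeneous.** -/
theorem homOn_top (D : PD Φ Q r) {i : Fin r} (h : Fits P (D.e i))
    {QA : Subgroup ((ι → K) ≃ₗ[K] (ι → K))} (hA : Img P.x Q QA) : HomOn QA ⊤ := by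
  refine ⟨fun _ _ _ _ => trivial, fun x' hx' => ?_⟩
  obtain ⟨x, hx, h1⟩ := hA.span hx'
  rcases D.hom i x hx with h2 | h2
  · left
    intro w _
    apply P.x_injective
    rw [← h1, map_zero, ← h.e_x w]
    exact congrArg (fun f : End K E => f (P.x w)) h2
  · right
    intro w _ hw
    have h3 := h2 (P.x w) (by rw [h.e_x, h1, hw, map_zero])
    rw [h.e_x] at h3
    apply P.x_injective
    rw [h3, map_zero]

/-- **The image of `Q` in the general linear group of a pair is not trivial.** -/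
theorem img_ne_bot (D : PD Φ Q r) {i : Fin r} (h : Fits P (D.e i))
    {QA : Subgroup ((ι → K) ≃ₗ[K] (ι → K))} (hA : Img P.x Q QA) : QA ≠ ⊥ := by
  rintro rfl
  obtain ⟨q, hq, hne⟩ := D.nt i
  obtain ⟨g, hg, h1⟩ := hA.fwd q hq
  rw [Subgroup.mem_bot] at hg
  subst hg
  apply hne
  ext v
  change q (D.e i v) = D.e i v
  rw [h.ex, h1]
  rfl

theorem e_mem_W (D : PD Φ Q (r + 1)) (h : Fits P (D.e (Fin.last r))) (i : Fin r) (v : E) :
    D.e i.castSucc v ∈ W P := by
  have hne : Fin.last r ≠ i.castSucc := (Fin.castSucc_lt_last i).ne'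
  rw [h.mem_W']
  exact ⟨congrArg (fun f : End K E => f v) (D.orth _ _ hne),
    congrArg (fun f : End K E => f v) (D.iso _ _)⟩

theorem adj_mem_W (D : PD Φ Q (r + 1)) (h : Fits P (D.e (Fin.last r))) (i : Fin r) (v : E) :
    Φ.adj (D.e i.castSucc) v ∈ W P := by
  have hne : i.castSucc ≠ Fin.last r := (Fin.castSucc_lt_last i).ne
  rw [h.mem_W']
  refine ⟨congrArg (fun f : End K E => f v) (D.iso' _ _), ?_⟩
  have h1 : Φ.adj (D.e (Fin.last r)) * Φ.adj (D.e i.castSucc) = 0 := by
    rw [← Φ.adj_mul, D.orth _ _ hne, Φ.adj_zero]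
  exact congrArg (fun f : End K E => f v) h1

/-- the restriction of a projection to the complement -/
noncomputable def eW (D : PD Φ Q (r + 1)) (h : Fits P (D.e (Fin.last r))) (i : Fin r) :
    End K (W P) :=
  (D.e i.castSucc).restrict fun v _ => e_mem_W D h i v

theorem eW_coe (D : PD Φ Q (r + 1)) (h : Fits P (D.e (Fin.last r))) (i : Fin r) (w : W P) :
    ((eW D h i w : W P) : E) = D.e i.castSucc w := rfl

theorem adj_eW (D : PD Φ Q (r + 1)) (h : Fits P (D.e (Fin.last r))) (i : Fin r) (w : W P) :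
    (((res P).adj (eW D h i) w : W P) : E) = Φ.adj (D.e i.castSucc) w := by
  have h1 : (Φ.adj (D.e i.castSucc)).restrict (fun v (_ : v ∈ W P) => adj_mem_W D h i v) =
      (res P).adj (eW D h i) := by
    apply (res P).eq_adj
    intro v w
    exact Φ.adj_right _ _ _
  rw [← h1]
  rfl

/-- **The other pairs form a decomposition of the complement.** -/
noncomputable def step (D : PD Φ Q (r + 1)) (h : Fits P (D.e (Fin.last r))) (hQ : Q ≤ IsoG Φ)
    (hab : ∀ x ∈ Q, ∀ y ∈ Q, x * y = y * x) {Qc : Subgroup (W P ≃ₗ[K] W P)}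
    (hc : Img (W P).subtype Q Qc) : PD (res P) Qc r where
  e := eW D h
  idem i := by
    ext w
    change D.e i.castSucc (D.e i.castSucc w) = D.e i.castSucc w
    exact congrArg (fun f : End K E => f w) (D.idem _)
  orth i j hij := by
    ext w
    change D.e i.castSucc (D.e j.castSucc w) = 0
    exact congrArg (fun f : End K E => f w)
      (D.orth _ _ fun h => hij (Fin.castSucc_injective r h))
  iso i j := by
    ext w
    rw [End.mul_apply, adj_eW, eW_coe]
    exact congrArg (fun f : End K E => f w) (D.iso _ _)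
  iso' i j := by
    ext w
    rw [End.mul_apply, eW_coe, adj_eW]
    exact congrArg (fun f : End K E => f w) (D.iso' _ _)
  comm a ha i := by
    let A : End K E :=
      { toFun := fun v => (a ⟨P.pw v, pw_mem v⟩ : W P)
        map_add' := fun v w => by
          have h1 : (⟨P.pw (v + w), pw_mem (v + w)⟩ : W P) =
              ⟨P.pw v, pw_mem v⟩ + ⟨P.pw w, pw_mem w⟩ := by
            apply Subtype.ext
            change P.pw (v + w) = P.pw v + P.pw w
            unfold Hyp.pw
            simp only [map_add]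
            abel
          rw [h1, map_add, Submodule.coe_add]
        map_smul' := fun c v => by
          have h1 : (⟨P.pw (c • v), pw_mem (c • v)⟩ : W P) = c • ⟨P.pw v, pw_mem v⟩ := by
            apply Subtype.ext
            change P.pw (c • v) = c • P.pw v
            unfold Hyp.pw
            simp only [map_smul, smul_sub]
          rw [h1, map_smul, Submodule.coe_smul, RingHom.id_apply] }
    have hA : ∀ v, A v = (a ⟨P.pw v, pw_mem v⟩ : W P) := fun _ => rfl
    have hA' : ∀ w : W P, A w = (a w : W P) := by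
      intro w
      rw [hA]
      have h1 : (⟨P.pw (w : E), pw_mem (w : E)⟩ : W P) = w := Subtype.ext (pw_of_mem w.2)
      rw [h1]
    have hcomm : ∀ q ∈ Q, A * tE q = tE q * A := by
      intro q hq
      obtain ⟨q', hq', h1⟩ := hc.fwd q hq
      ext v
      change A (q v) = q (A v)
      rw [hA, hA]
      have h2 : (⟨P.pw (q v), pw_mem (q v)⟩ : W P) = q' ⟨P.pw v, pw_mem v⟩ := by
        apply Subtype.ext
        change P.pw (q v) = _
        rw [h.comm_pw (hQ hq) (comm_e D _ fun y hy => hab q hq y hy)]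
        exact h1 ⟨P.pw v, pw_mem v⟩
      rw [h2]
      have h3 := congrArg (fun f : End K (W P) => f ⟨P.pw v, pw_mem v⟩) (ha q' hq')
      change a (q' ⟨P.pw v, pw_mem v⟩) = q' (a ⟨P.pw v, pw_mem v⟩) at h3
      rw [h3]
      exact (h1 _).symm
    have h4 := D.comm A hcomm i.castSucc
    ext w
    have h5 := congrArg (fun f : End K E => f (w : E)) h4
    change A (D.e i.castSucc w) = D.e i.castSucc (A w) at h5
    rw [hA', ← eW_coe D h, hA'] at h5
    exact h5
  hom i x hx := by
    obtain ⟨X, hX, h1⟩ := hc.span hx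
    rcases D.hom i.castSucc X hX with h2 | h2
    · left
      ext w
      change ((x (eW D h i w) : W P) : E) = 0
      have h3 : X ((eW D h i w : W P) : E) = ((x (eW D h i w) : W P) : E) := h1 (eW D h i w)
      rw [← h3, eW_coe]
      exact congrArg (fun f : End K E => f w) h2
    · right
      intro w hw
      apply Subtype.ext
      rw [eW_coe]
      apply h2
      have h3 : X ((eW D h i w : W P) : E) = ((x (eW D h i w) : W P) : E) := h1 (eW D h i w)
      rw [← eW_coe D h, h3, hw]
      rfl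
  nt i := by
    obtain ⟨q, hq, hne⟩ := D.nt i.castSucc
    obtain ⟨q', hq', h1⟩ := hc.fwd q hq
    refine ⟨q', hq', fun h2 => hne ?_⟩
    ext v
    change q (D.e i.castSucc v) = D.e i.castSucc v
    have h3 := congrArg (fun f : End K (W P) => ((f ⟨D.e i.castSucc v, e_mem_W D h i v⟩ : W P) : E))
      h2
    change ((q' (eW D h i ⟨D.e i.castSucc v, e_mem_W D h i v⟩) : W P) : E) =
      ((eW D h i ⟨D.e i.castSucc v, e_mem_W D h i v⟩ : W P) : E) at h3
    have h4 : eW D h i ⟨D.e i.castSucc v, e_mem_W D h i v⟩ =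
        ⟨D.e i.castSucc v, e_mem_W D h i v⟩ :=
      Subtype.ext (congrArg (fun f : End K E => f v) (D.idem i.castSucc))
    rw [h4] at h3
    exact (h1 _).trans h3
  triv v h0 h1 q' hq' := by
    obtain ⟨q, hq, h2⟩ := hc.bwd q' hq'
    apply Subtype.ext
    refine (h2 v).symm.trans ?_
    refine D.triv v (fun i => ?_) (fun i => ?_) q hq
    · induction i using Fin.lastCases with
      | last => exact (h.mem_W'.mp v.2).1
      | cast i => rw [← eW_coe D h, h0]; rfl
    · induction i using Fin.lastCases with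
      | last => exact (h.mem_W'.mp v.2).2
      | cast i => rw [← adj_eW D h, h1]; rfl

end

end Vale.Agent.P180.H574
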