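import Vale.Agent.P180.H574.LemDC
import Vale.Agent.P180.H897.LemD2

/-!
P180 H574: the row (A) with the Engel condition of length `max 1 (p - 2)`, for every prime `p`.
-/

set_option linter.all false

namespace Vale.Agent.P180.H574

open Module Vale.Agent.P180.H951

/-- **Row (A)** for every prime `p`, with an Engel condition of length `max 1 (p - 2)`. -/
theorem rowU {p : ℕ} [hp : Fact p.Prime] {K V : Type} [Field K] [Finite K]
    [AddCommGroup V] [Module K V] [Finite V] (hpK : ¬ p ∣ Nat.card K) (S : Subgroup (V ≃ₗ[K] V))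
    (hS : IsPGroup p S) (hmax : MaxIn p S)
    (hT : ∀ x ∈ S, ∀ y ∈ S, LinearMap.det (x : V →ₗ[K] V) = 1 →
      LinearMap.det (y : V →ₗ[K] V) = 1 →
        (fun t => x * t * x⁻¹ * t⁻¹)^[max 1 (p - 2)] y = 1) :
    ∀ x ∈ S, ∀ y ∈ S, x * y = y * x := by
  by_cases h2 : p = 2
  · refine Vale.Agent.P180.H897.MatD.rowA2 hpK S hS hmax fun x hx y hy hx1 hy1 => ?_
    have h := hT x hx y hy hx1 hy1
    have e : max 1 (p - 2) = 1 := by omega
    rw [e] at h
    have h3 : x * y * x⁻¹ * y⁻¹ = 1 := h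
    calc x * y = (x * y * x⁻¹ * y⁻¹) * (y * x) := by group
      _ = y * x := by rw [h3, one_mul]
  · refine rowE h2 hpK S hS hmax fun x hx y hy hx1 hy1 => ?_
    have h := hT x hx y hy hx1 hy1
    have := hp.out.two_le
    have e : max 1 (p - 2) = p - 2 := by omega
    rwa [e] at h

end Vale.Agent.P180.H574
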