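import Vale.Agent.P180.H951.SlAllG
import Vale.Agent.P180.H574.LemDC

/-!
P180 H574: special linear groups of all ranks, `p` odd: the blocks with a defect group with an Engel
condition of length `p - 2`.
-/

set_option linter.all false

namespace Vale.Agent.P180.H574

open Module Subgroup Vale.Agent.P180 Vale.Agent.P180.H768.Gd Vale.Agent.P180.R2.H471.Hc
  Vale.Agent.P180.R2.H799 Vale.Agent.P180.R2.H954 Vale.Agent.P180.H951
open Vale.Agent.P180.R2.H259.Cyc (cycB cycB_mono)
open Vale.Agent.P180.H19.Pidx (PrimStmt oneBd_pidx_of)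

universe u

variable {k : Type u} [Field k] [IsAlgClosed k] {p : ℕ} [Fact p.Prime] [CharP k p]

/-- **Special linear groups**, all ranks, `p` odd: a small idempotent for the blocks with a defect
group with an Engel condition of length `p - 2`; from the lemmas. -/
theorem oneBd_slE_of (h2 : p ≠ 2) {K V : Type} [Field K] [Finite K] [AddCommGroup V] [Module K V] [Finite V]
    [Finite (V ≃ₗ[K] V)] [Finite (SpecialLinearGroup K V)] (hpK : ¬ p ∣ Nat.card K)
    (hC : p ∣ Nat.card K - 1 → ∀ S : Subgroup (V ≃ₗ[K] V), IsPGroup p S → MaxIn p S →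
      (∀ x ∈ S, ∀ y ∈ S, x * y = y * x) →
      IsCyclic (S ⊓ (LinearEquiv.det : (V ≃ₗ[K] V) →* Kˣ).ker : Subgroup (V ≃ₗ[K] V)) ∨
        Nat.card S ≤ (Nat.card (S ⊓ (LinearEquiv.det : (V ≃ₗ[K] V) →* Kˣ).ker :
          Subgroup (V ≃ₗ[K] V))) ^ 2)
    (hB : ∀ Q : Subgroup (NG p K V), IsPGroup p Q → ∀ C : ℕ,
      (∀ (S : Subgroup (V ≃ₗ[K] V)) (B z : MonoidAlgebra k (V ≃ₗ[K] V)), IsPGroup p S →
        (∃ g : V ≃ₗ[K] V, ∀ x, x ∈ S ⊓ NG p K V ↔ g⁻¹ * x * g ∈ Q.map (NG p K V).subtype) →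
        IsBlockOf ⊤ B → z ∈ Fix (cj k _) S → B = tr (cj k _) S ⊤ z → br S B ≠ 0 →
        OneBd k S C) → OneBd k Q C)
    {n : ℕ} {Q : Subgroup (SpecialLinearGroup K V)} (hQ : IsPGroup p Q) (hQn : Nat.card Q ≤ n)
    (hab : ∀ x ∈ Q, ∀ y ∈ Q, (cm x)^[p - 2] y = 1) : OneBd k Q (slC p n) := by
  classical
  have hn : 1 ≤ n := Nat.card_pos.trans_le hQn
  have hn2 : n ≤ n ^ 2 := by nlinarith
  have mono : ∀ {C C' : ℕ}, C ≤ C' → OneBd k Q C → OneBd k Q C' := by
    intro C C' hCC h e a he ha hea hbr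
    obtain ⟨i, h1, h2, h3, h4, h5⟩ := h e a he ha hea hbr
    exact ⟨i, h1, h2, h3, h4, h5.trans hCC⟩
  by_cases hcyc : IsCyclic Q
  · exact mono ((cycB_mono hQn).trans (le_max_right _ _)) (oneBd_cyc hQ hcyc)
  by_cases hq : p ∣ Nat.card K - 1
  · -- descent from the general linear group
    refine mono ?_ (oneBd_sl_of_NG hQ (C := glC p (n ^ 2)) ?_)
    · exact (Nat.mul_le_mul_right _ (Nat.factorial_le hQn)).trans (le_max_left _ _)
    refine hB _ (hQ.map _) _ ?_
    rintro S B z hS ⟨g, hg⟩ hBb hz hBz hbr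
    have hmax : MaxIn p S := maxIn_of_block hS hz hBz hbr
    have hmapj : (Q.map (jS p K V)).map (NG p K V).subtype =
        Q.map (SpecialLinearGroup.toLinearEquiv (R := K) (V := V)) := by
      rw [Subgroup.map_map]
      rfl
    rw [hmapj] at hg
    -- the conjugation
    have hcg : ∀ x ∈ S ⊓ NG p K V, ∀ y ∈ S ⊓ NG p K V, (cm x)^[p - 2] y = 1 := by
      intro x hx y hy
      obtain ⟨x', hx', hx1⟩ := (hg x).mp hx
      obtain ⟨y', hy', hy1⟩ := (hg y).mp hy
      have h1 := cm_map (SpecialLinearGroup.toLinearEquiv (R := K) (V := V)) x' y' (p - 2)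
      rw [hab _ hx' _ hy', map_one] at h1
      have h3 := cm_map (MulAut.conj g⁻¹).toMonoidHom x y (p - 2)
      have hx2 : (MulAut.conj g⁻¹).toMonoidHom x = SpecialLinearGroup.toLinearEquiv x' := by
        rw [hx1]
        change g⁻¹ * x * g⁻¹⁻¹ = _
        rw [inv_inv]
      have hy2 : (MulAut.conj g⁻¹).toMonoidHom y = SpecialLinearGroup.toLinearEquiv y' := by
        rw [hy1]
        change g⁻¹ * y * g⁻¹⁻¹ = _
        rw [inv_inv]
      rw [hx2, hy2] at h3
      exact (MulAut.conj g⁻¹).injective ((h3.trans h1.symm).trans (map_one _).symm)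
    let eQ : (S ⊓ NG p K V : Subgroup (V ≃ₗ[K] V)) ≃*
        Q.map (SpecialLinearGroup.toLinearEquiv (R := K) (V := V)) :=
      { toFun := fun x => ⟨g⁻¹ * x * g, (hg x).mp x.2⟩
        invFun := fun x => ⟨g * x * g⁻¹, (hg _).mpr (by
          have h1 : g⁻¹ * (g * (x : V ≃ₗ[K] V) * g⁻¹) * g = x := by group
          rw [h1]
          exact x.2)⟩
        left_inv := fun x => Subtype.ext (by
          change g * (g⁻¹ * (x : V ≃ₗ[K] V) * g) * g⁻¹ = x
          group)
        right_inv := fun x => Subtype.ext (by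
          change g⁻¹ * (g * (x : V ≃ₗ[K] V) * g⁻¹) * g = x
          group)
        map_mul' := fun x y => Subtype.ext (by
          change g⁻¹ * ((x : V ≃ₗ[K] V) * y) * g = g⁻¹ * (x : V ≃ₗ[K] V) * g * (g⁻¹ * y * g)
          group) }
    let eQ2 : Q ≃* Q.map (SpecialLinearGroup.toLinearEquiv (R := K) (V := V)) :=
      Q.equivMapOfInjective _ SpecialLinearGroup.toLinearEquiv_injective
    have hcard : Nat.card (S ⊓ NG p K V : Subgroup (V ≃ₗ[K] V)) = Nat.card Q :=
      (Nat.card_congr eQ.toEquiv).trans (Nat.card_congr eQ2.toEquiv).symm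
    have hdet : ∀ x : V ≃ₗ[K] V, LinearMap.det (x : V →ₗ[K] V) = 1 → x ∈ NG p K V := by
      intro x hx
      refine NG_of_det (Units.ext ?_)
      rw [LinearEquiv.coe_det, hx, Units.val_one]
    have hSab : ∀ x ∈ S, ∀ y ∈ S, x * y = y * x :=
      rowE h2 hpK S hS hmax fun x hx y hy hx1 hy1 => hcg x ⟨hx, hdet x hx1⟩ y ⟨hy, hdet y hy1⟩
    have hSN : S ⊓ NG p K V ≤ S ⊓ (LinearEquiv.det : (V ≃ₗ[K] V) →* Kˣ).ker := by
      rintro x ⟨hx, hxN⟩
      refine ⟨hx, ?_⟩
      obtain ⟨j, hj⟩ := hS ⟨x, hx⟩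
      have hj : x ^ p ^ j = 1 := congrArg Subtype.val hj
      have hp : p.Prime := Fact.out
      have hq1 : Nat.card K - 1 ≠ 0 := by
        have := Finite.one_lt_card (α := K)
        omega
      have h1 : (LinearEquiv.det x) ^ p ^ j = 1 := by rw [← map_pow, hj, map_one]
      have h2 := orderOf_dvd_of_pow_eq_one h1
      have h3 := orderOf_dvd_of_pow_eq_one (mem_NG.mp hxN)
      have h4 : Nat.Coprime (p ^ j) (ordCompl[p] (Nat.card K - 1)) :=
        (Nat.coprime_ordCompl hp hq1).pow_left j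
      have h5 := Nat.eq_one_of_dvd_coprimes h4 h2 h3
      exact orderOf_eq_one_iff.mp h5
    have hScard : Nat.card S ≤ n ^ 2 := by
      rcases hC hq S hS hmax hSab with h | h
      · exfalso
        apply hcyc
        have h1 : IsCyclic (S ⊓ NG p K V : Subgroup (V ≃ₗ[K] V)) :=
          isCyclic_of_injective (Subgroup.inclusion hSN) (Subgroup.inclusion_injective _)
        exact isCyclic_of_injective (eQ2.trans eQ.symm).toMonoidHom (eQ2.trans eQ.symm).injective
      · refine h.trans (Nat.pow_le_pow_left (le_trans ?_ hQn) 2)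
        rw [← hcard]
        refine Nat.card_le_card_of_injective (Subgroup.inclusion (inf_le_inf_left S ?_))
          (Subgroup.inclusion_injective _)
        exact fun x hx => NG_of_det hx
    exact oneBd_glb hpK hS hScard hSab
  · have h1 : OneBd k (Q.map (SpecialLinearGroup.toLinearEquiv (R := K) (V := V))) (glC p n) := by
      intro e a he ha hea hbr
      have hmax := maxIn_of_block (hQ.map _) ha hea hbr
      refine oneBd_glb hpK (hQ.map _) ?_ ?_ e a he ha hea hbr
      · rw [Subgroup.card_map_of_injective SpecialLinearGroup.toLinearEquiv_injective]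
        exact hQn
      · refine rowE h2 hpK _ (hQ.map _) hmax ?_
        rintro _ ⟨x, hx, rfl⟩ _ ⟨y, hy, rfl⟩ - -
        have h3 := cm_map (SpecialLinearGroup.toLinearEquiv (R := K) (V := V)) x y (p - 2)
        rw [hab _ hx _ hy, map_one] at h3
        exact h3.symm
    refine mono ?_ (H396.oneBd_sl hq hQ h1)
    exact (Nat.mul_le_mul (Nat.factorial_le hQn) (glC_mono hn2)).trans (le_max_left _ _)

/-- **Special linear groups**, all ranks, `p` odd: a small idempotent for the blocks with a defect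
group with an Engel condition of length `p - 2`. -/
theorem oneBd_slE {K V : Type} [Field K] [Finite K] [AddCommGroup V] [Module K V] [Finite V]
    [Finite (V ≃ₗ[K] V)] [Finite (SpecialLinearGroup K V)] (h2 : p ≠ 2) (hpK : ¬ p ∣ Nat.card K)
    {n : ℕ} {Q : Subgroup (SpecialLinearGroup K V)} (hQ : IsPGroup p Q) (hQn : Nat.card Q ≤ n)
    (hab : ∀ x ∈ Q, ∀ y ∈ Q, (fun t => x * t * x⁻¹ * t⁻¹)^[p - 2] y = 1) :
    OneBd k Q (slC p n) := by
  refine oneBd_slE_of h2 hpK ?_ ?_ hQ hQn hab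
  · intro _ S hS hmax hSab
    rcases H354.NumS.card_le_sq_or S hS hpK hSab hmax with h | h
    · haveI := h
      exact Or.inl (isCyclic_of_injective (Subgroup.inclusion inf_le_left)
        (Subgroup.inclusion_injective inf_le_left))
    · exact Or.inr h
  · intro Q' hQ' C hC
    refine oneBd_pidx_of ?_ isPGroup_quot (primStmt_cyc _ isCyclic_quot isPGroup_quot) hQ' ?_
    · intro x y
      obtain ⟨a, rfl⟩ := QuotientGroup.mk_surjective x
      obtain ⟨b, rfl⟩ := QuotientGroup.mk_surjective y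
      rw [← QuotientGroup.mk_mul, ← QuotientGroup.mk_mul, QuotientGroup.eq]
      refine NG_of_det ?_
      rw [map_mul, map_inv, map_mul, map_mul, mul_comm (LinearEquiv.det b), inv_mul_cancel]
    · rintro S B z hS ⟨g, hg⟩ hB hz hBz hbr
      refine hC S B z hS ⟨g, fun x => ?_⟩ hB hz hBz hbr
      rw [hg]
      exact mem_conjS

end Vale.Agent.P180.H574
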